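import Mathlib

namespace Vale.Agent.P322

open Real Finset

/-- The function `atanh` written through logarithms. -/
noncomputable def psi (a : ℝ) : ℝ := (1 / 2) * Real.log ((1 + a) / (1 - a))

/-- The edge cost: a quarter of the symmetrised Kullback-Leibler divergence, in nats. -/
noncomputable def cost (a b : ℝ) : ℝ := (a - b) * (psi a - psi b) / 4

lemma cost_comm (a b : ℝ) : cost a b = cost b a := by
  unfold cost; ring

lemma psi_sub {a b : ℝ} (ha : |a| < 1) (hb : |b| < 1) :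
    psi a - psi b = (1 / 2) * Real.log (((1 + a) * (1 - b)) / ((1 - a) * (1 + b))) := by
  have ha' := abs_lt.mp ha
  have hb' := abs_lt.mp hb
  have h1 : 0 < 1 + a := by linarith
  have h2 : 0 < 1 - a := by linarith
  have h3 : 0 < 1 + b := by linarith
  have h4 : 0 < 1 - b := by linarith
  unfold psi
  rw [Real.log_div h1.ne' h2.ne', Real.log_div h3.ne' h4.ne',
    Real.log_div (mul_pos h1 h4).ne' (mul_pos h2 h3).ne',
    Real.log_mul h1.ne' h4.ne', Real.log_mul h2.ne' h3.ne']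
  ring

/-- The polynomial heart of the two-point inequality. -/
lemma two_point_poly {a b : ℝ} (ha : |a| < 1) (hb : |b| < 1) (hab : b ≤ a) :
    ((1 - (a ^ 2 + b ^ 2) / 2) + (a - b)) ^ 2 * ((1 - a) * (1 + b))
      ≤ ((1 + a) * (1 - b)) * (1 - (a ^ 2 + b ^ 2) / 2) ^ 2 := by
  have ha' := abs_lt.mp ha
  have hb' := abs_lt.mp hb
  set α : ℝ := (1 + a) * (1 - b) / 4 with hα
  set β : ℝ := (1 - a) * (1 + b) / 4 with hβ
  set Z : ℝ := (1 - (a ^ 2 + b ^ 2) / 2) / 2 with hZ
  have hdiff : α - β = (a - b) / 2 := by rw [hα, hβ]; ring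
  have hd0 : 0 ≤ α - β := by rw [hdiff]; linarith
  have hβ0 : 0 ≤ β := by
    rw [hβ]; have : 0 < (1 - a) * (1 + b) := mul_pos (by linarith) (by linarith); linarith
  have hZ2 : 0 ≤ Z - 2 * β := by
    have : Z - 2 * β = (a - b) * (1 - (a - b) / 2) / 2 := by rw [hZ, hβ]; ring
    rw [this]
    have h1 : 0 ≤ a - b := by linarith
    have h2 : 0 ≤ 1 - (a - b) / 2 := by linarith
    positivity
  have hZ0 : 0 ≤ Z := by linarith
  have h3 : (Z / 2) ^ 2 ≤ (Z - β) ^ 2 := by
    apply pow_le_pow_left₀ (by positivity)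
    linarith
  have h4 : α * β ≤ (Z / 2) ^ 2 := by
    have : (Z / 2) ^ 2 - α * β = (((1 - a ^ 2) - (1 - b ^ 2)) / 8) ^ 2 := by
      rw [hZ, hα, hβ]; ring
    have h5 := sq_nonneg (((1 - a ^ 2) - (1 - b ^ 2)) / 8)
    linarith
  have hfinal : 0 ≤ (α - β) * ((Z - β) ^ 2 - α * β) :=
    mul_nonneg hd0 (by linarith)
  have hid : ((1 + a) * (1 - b)) * (1 - (a ^ 2 + b ^ 2) / 2) ^ 2
      - ((1 - (a ^ 2 + b ^ 2) / 2) + (a - b)) ^ 2 * ((1 - a) * (1 + b))
      = 16 * ((α - β) * ((Z - β) ^ 2 - α * β)) := by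
    rw [hZ, hα, hβ]; ring
  linarith

/-- The two-point inequality: `log (1 + (a-b)/nu) ≤ psi a - psi b`. -/
lemma two_point {a b : ℝ} (ha : |a| < 1) (hb : |b| < 1) (hab : b ≤ a) :
    Real.log (1 + (a - b) / (1 - (a ^ 2 + b ^ 2) / 2)) ≤ psi a - psi b := by
  have ha' := abs_lt.mp ha
  have hb' := abs_lt.mp hb
  have hν : 0 < 1 - (a ^ 2 + b ^ 2) / 2 := by nlinarith
  set ν : ℝ := 1 - (a ^ 2 + b ^ 2) / 2 with hνdef
  have hpoly := two_point_poly ha hb hab
  rw [← hνdef] at hpoly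
  rw [psi_sub ha hb]
  have h1 : 0 < 1 + (a - b) / ν := by
    have : 0 ≤ (a - b) / ν := div_nonneg (by linarith) hν.le
    linarith
  have h2 : 0 < (1 - a) * (1 + b) := mul_pos (by linarith) (by linarith)
  have h3 : 0 < (1 + a) * (1 - b) := mul_pos (by linarith) (by linarith)
  have h4 : (1 + (a - b) / ν) ^ 2 ≤ ((1 + a) * (1 - b)) / ((1 - a) * (1 + b)) := by
    rw [le_div_iff₀ h2]
    have : (1 + (a - b) / ν) = (ν + (a - b)) / ν := by field_simp
    rw [this, div_pow, div_mul_eq_mul_div, div_le_iff₀ (by positivity)]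
    exact hpoly
  have h5 := Real.log_le_log (by positivity) h4
  rw [Real.log_pow] at h5
  push_cast at h5
  linarith

lemma nu_pos {a b : ℝ} (ha : |a| < 1) (hb : |b| < 1) : 0 < 1 - (a ^ 2 + b ^ 2) / 2 := by
  have ha' := abs_lt.mp ha
  have hb' := abs_lt.mp hb
  nlinarith

/-- The cost is bounded below through the two-point inequality (both orders of `a,b`). -/
lemma cost_ge {a b : ℝ} (ha : |a| < 1) (hb : |b| < 1) :
    (|a - b| / 4) * Real.log (1 + |a - b| / (1 - (a ^ 2 + b ^ 2) / 2)) ≤ cost a b := by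
  rcases le_total b a with h | h
  · have h1 := two_point ha hb h
    have h2 : |a - b| = a - b := abs_of_nonneg (by linarith)
    rw [h2]; unfold cost
    have h3 : 0 ≤ a - b := by linarith
    nlinarith
  · have h1 := two_point hb ha h
    have h2 : |a - b| = b - a := by rw [abs_sub_comm]; exact abs_of_nonneg (by linarith)
    rw [h2, cost_comm]; unfold cost
    have h3 : 0 ≤ b - a := by linarith
    have h4 : (b ^ 2 + a ^ 2) = a ^ 2 + b ^ 2 := by ring
    rw [h4] at h1
    nlinarith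

/-- A tangent-line bound for `y log (1+y)`. -/
lemma tangent_bound {d ν η : ℝ} (hd : 0 ≤ d) (hν : 0 < ν) (hη : 0 ≤ η) :
    d * (Real.log (1 + η) + η / (1 + η)) - ν * (η ^ 2 / (1 + η))
      ≤ d * Real.log (1 + d / ν) := by
  set y : ℝ := d / ν with hy
  have hy0 : 0 ≤ y := div_nonneg hd hν.le
  have hdy : d = ν * y := by rw [hy]; field_simp
  have h1η : 0 < 1 + η := by linarith
  have h1y : 0 < 1 + y := by linarith
  have hlog : (y - η) / (1 + y) ≤ Real.log (1 + y) - Real.log (1 + η) := by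
    rw [← Real.log_div h1y.ne' h1η.ne']
    have := Real.one_sub_inv_le_log_of_pos (div_pos h1y h1η)
    have h2 : 1 - ((1 + y) / (1 + η))⁻¹ = (y - η) / (1 + y) := by
      field_simp; ring
    rw [h2] at this
    exact this
  have key : y * (Real.log (1 + η) + η / (1 + η)) - η ^ 2 / (1 + η) ≤ y * Real.log (1 + y) := by
    have h3 : y * ((y - η) / (1 + y)) ≤ y * (Real.log (1 + y) - Real.log (1 + η)) :=
      mul_le_mul_of_nonneg_left hlog hy0
    have h4 : y * ((y - η) / (1 + y)) - (y * (η / (1 + η)) - η ^ 2 / (1 + η))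
        = (y - η) ^ 2 / ((1 + y) * (1 + η)) := by
      field_simp; ring
    have h5 : 0 ≤ (y - η) ^ 2 / ((1 + y) * (1 + η)) := by positivity
    nlinarith
  have := mul_le_mul_of_nonneg_left key hν.le
  rw [hdy]
  calc ν * y * (Real.log (1 + η) + η / (1 + η)) - ν * (η ^ 2 / (1 + η))
      = ν * (y * (Real.log (1 + η) + η / (1 + η)) - η ^ 2 / (1 + η)) := by ring
    _ ≤ ν * (y * Real.log (1 + y)) := this
    _ = ν * y * Real.log (1 + y) := by ring

/-- Bernoulli in logarithmic form. -/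
lemma log_bernoulli {q V : ℝ} (hq0 : 0 ≤ q) (hq1 : q ≤ 1) (hV : 0 < V) :
    q * Real.log (2 / V) ≤ Real.log (1 + 2 * q / V) := by
  have hc := (strictConcaveOn_log_Ioi).concaveOn
  have hx : (1 + 2 / V) ∈ Set.Ioi (0 : ℝ) := by
    simp only [Set.mem_Ioi]; positivity
  have hone : (1 : ℝ) ∈ Set.Ioi (0 : ℝ) := by simp
  have := hc.2 hx hone hq0 (sub_nonneg.mpr hq1) (by ring)
  simp only [smul_eq_mul, Real.log_one, mul_zero, add_zero] at this
  have h2 : q * (1 + 2 / V) + (1 - q) * 1 = 1 + 2 * q / V := by field_simp; ring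
  rw [h2] at this
  have h3 : Real.log (2 / V) ≤ Real.log (1 + 2 / V) :=
    Real.log_le_log (by positivity) (by linarith)
  have h4 := mul_le_mul_of_nonneg_left h3 hq0
  linarith

end Vale.Agent.P322
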