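import Vale.Agent.P322.Merge

namespace Vale.Agent.P322

open Real Finset

variable {n : ℕ}

/-- **Weak stability**: a Boolean function with no heavy coordinate has a block of coordinates
whose two conditional expectations leave a fixed part of the mass. -/
theorem fkn {F : (Fin n → Bool) → ℝ} (hF : ∀ x, (F x) ^ 2 = 1) (hm : (avg F) ^ 2 ≤ 1 / 1000)
    (hc : ∀ j : Fin n, SS {j} F - (avg F) ^ 2 < 1 / 4) :
    ∃ I : Finset (Fin n), SS I F + SS Iᶜ F ≤ 1 + (avg F) ^ 2 - 1 / 30 := by
  classical
  by_contra hno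
  push Not at hno
  set μ : ℝ := (avg F) ^ 2 with hμ
  have hμ0 : 0 ≤ μ := sq_nonneg _
  have hmabs : |avg F| ≤ 0.16 := by
    have h : (avg F) ^ 2 ≤ (0.16 : ℝ) ^ 2 := by
      rw [← hμ]; norm_num; linarith
    exact abs_le_of_sq_le_sq h (by norm_num)
  have hF1 : SS Finset.univ F = 1 := by
    rw [SS_univ]
    simp only [hF, avg_const]
  set s : Finset (Finset (Fin n)) := Finset.univ.filter (fun K => 1 / 2 ≤ SS K F) with hs
  have hne : s.Nonempty := ⟨Finset.univ, by
    rw [hs, Finset.mem_filter]
    exact ⟨Finset.mem_univ _, by rw [hF1]; norm_num⟩⟩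
  obtain ⟨I', hI'mem, hmin⟩ := Finset.exists_min_image s Finset.card hne
  have hI'S : 1 / 2 ≤ SS I' F := (Finset.mem_filter.mp hI'mem).2
  have hI'ne : I'.Nonempty := by
    rw [Finset.nonempty_iff_ne_empty]
    intro h
    rw [h, SS_empty] at hI'S
    rw [← hμ] at hI'S
    linarith
  obtain ⟨j, hj⟩ := hI'ne
  set I : Finset (Fin n) := I'.erase j with hI
  have hIS : SS I F < 1 / 2 := by
    by_contra hge
    push Not at hge
    have hmem : I ∈ s := by
      rw [hs, Finset.mem_filter]
      exact ⟨Finset.mem_univ _, hge⟩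
    have h1 := hmin I hmem
    have h2 := Finset.card_erase_lt_of_mem hj
    rw [← hI] at h2
    omega
  have hKL : ∀ i, i ∈ I' ∨ i ∈ Iᶜ := by
    intro i
    by_cases hi : i ∈ I'
    · exact Or.inl hi
    · right
      rw [Finset.mem_compl, hI, Finset.mem_erase]
      exact fun h => hi h.2
  have hinter : I' ∩ Iᶜ = {j} := by
    ext i
    simp only [Finset.mem_inter, Finset.mem_compl, hI, Finset.mem_erase, Finset.mem_singleton]
    constructor
    · rintro ⟨h1, h2⟩
      by_contra h3
      exact h2 ⟨h3, h1⟩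
    · rintro rfl
      exact ⟨hj, fun h => h.1 rfl⟩
  have hpair : avg (fun x => Av I' F x * Av Iᶜ F x) = SS {j} F := by
    rw [pair_indep hKL, hinter]
    unfold SS
    congr 1
    funext x
    ring
  set p : ℝ := SS I F with hp
  set q : ℝ := SS Iᶜ F with hq
  set p' : ℝ := SS I' F with hp'
  set q' : ℝ := SS I'ᶜ F with hq'
  -- the correlation bound
  have hcorr : (3 / 2) * (p' + q) - 2 ≤ SS {j} F := by
    have hFA : avg (fun x => F x * Av I' F x) = p' := avg_mul_Av_self I' F
    have hFB : avg (fun x => F x * Av Iᶜ F x) = q := avg_mul_Av_self Iᶜ F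
    have hAA : avg (fun x => (Av I' F x) ^ 2) = p' := rfl
    have hBB : avg (fun x => (Av Iᶜ F x) ^ 2) = q := rfl
    have hFF : avg (fun x => (F x) ^ 2) = 1 := by
      simp only [hF, avg_const]
    have hpt : ∀ x, (0 : ℝ) ≤ 2 * (F x) ^ 2 + (1 / 2) * (Av I' F x) ^ 2 + (1 / 2) * (Av Iᶜ F x) ^ 2
        - 2 * (F x * Av I' F x) - 2 * (F x * Av Iᶜ F x) + Av I' F x * Av Iᶜ F x := by
      intro x
      nlinarith [sq_nonneg (2 * F x - Av I' F x - Av Iᶜ F x)]
    have hav := avg_le_avg hpt
    rw [avg_const] at hav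
    simp only [avg_add, avg_sub, avg_mul_left] at hav
    rw [hFF, hAA, hBB, hFA, hFB, hpair] at hav
    linarith
  have hmix1 := mixed hF hmabs I
  have hmix2 := mixed hF hmabs I'
  rw [← hμ, ← hp, ← hq] at hmix1
  rw [← hμ, ← hp', ← hq'] at hmix2
  have hpge : μ ≤ p := SS_ge I F
  have hqge : μ ≤ q := SS_ge Iᶜ F
  have hpge' : μ ≤ p' := SS_ge I' F
  have hqge' : μ ≤ q' := SS_ge I'ᶜ F
  have hX1 := hno I
  have hX2 := hno I'
  rw [← hp, ← hq] at hX1
  rw [← hp', ← hq'] at hX2
  have hjc := hc j
  -- the arithmetic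
  have hσq : 7 / 15 < q - μ := by linarith
  have hσp : p - μ < 5 / 28 := by
    by_contra hge
    push Not at hge
    have h1 : 4 * (5 / 28) * (7 / 15) ≤ 4 * (p - μ) * (q - μ) := by
      apply mul_le_mul (by linarith) hσq.le (by norm_num) (by linarith)
    norm_num at h1
    linarith
  have hσq' : q' - μ < 1 / 5 := by
    by_contra hge
    push Not at hge
    have hpμ : (0.49 : ℝ) ≤ p' - μ := by linarith
    have h1 : 4 * 0.49 * (1 / 5) ≤ 4 * (p' - μ) * (q' - μ) := by
      apply mul_le_mul (by linarith) hge (by norm_num) (by linarith)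
    norm_num at h1
    linarith
  have h1 : 0.78 < q := by
    norm_num at hσp hX1 ⊢
    linarith
  have h2 : 0.76 < p' := by
    norm_num at hσq' hX2 ⊢
    linarith
  norm_num at h1 h2 hcorr hjc
  linarith

/-- The linear form of the log-gain bound. -/
lemma W_linear {B V μ : ℝ} (hB : 0 < B) (hV : 0 < V) (hμ : 0 < μ) :
    (1 / 2) * (B * Real.log (2 * μ) - μ * V) ≤ W B V := by
  unfold W
  set r : ℝ := μ * V / B with hr
  have hr0 : 0 < r := by positivity
  have h1 : Real.log r ≤ r - 1 := Real.log_le_sub_one_of_pos hr0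
  have h2 : 2 * B / V = 2 * μ / r := by
    rw [hr]; field_simp
  rw [h2, Real.log_div (by positivity) hr0.ne']
  have h3 : B * r = μ * V := by
    rw [hr]; field_simp
  have h4 := mul_le_mul_of_nonneg_left h1 hB.le
  nlinarith

lemma mrg_flp_mem {J : Finset (Fin n)} {i : Fin n} (hi : i ∈ J) (z w : Fin n → Bool) :
    mrg J z (flp i w) = mrg J z w := by
  funext k
  by_cases hk : k ∈ J
  · simp [mrg, hk]
  · have hne : k ≠ i := fun h => hk (h ▸ hi)
    simp [mrg, hk, flp, Function.update_of_ne hne]

lemma mrg_flp_not_mem {J : Finset (Fin n)} {i : Fin n} (hi : i ∉ J) (z w : Fin n → Bool) :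
    mrg J z (flp i w) = flp i (mrg J z w) := by
  funext k
  by_cases hki : k = i
  · subst hki
    simp [mrg, hi, flp]
  · by_cases hk : k ∈ J <;> simp [mrg, hk, flp, Function.update_of_ne hki]

lemma flp_mrg_mem {J : Finset (Fin n)} {i : Fin n} (hi : i ∈ J) (z w : Fin n → Bool) :
    flp i (mrg J z w) = mrg J (flp i z) w := by
  funext k
  by_cases hki : k = i
  · subst hki
    simp [mrg, hi, flp]
  · by_cases hk : k ∈ J <;> simp [mrg, hk, flp, Function.update_of_ne hki]

lemma avg_sum {ι : Type*} (s : Finset ι) (g : ι → (Fin n → Bool) → ℝ) :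
    avg (fun z => ∑ i ∈ s, g i z) = ∑ i ∈ s, avg (g i) := by
  unfold avg
  rw [Finset.sum_comm, Finset.sum_div]

lemma cost_self (a : ℝ) : cost a a = 0 := by
  unfold cost; ring

/-- The block form of the log-gain inequality. -/
theorem block_bound {u : (Fin n → Bool) → ℝ} (hu : ∀ x, |u x| < 1) (J : Finset (Fin n))
    {μ : ℝ} (hμ : 0 < μ) :
    (1 / 2) * ((1 - SS J u) * Real.log (2 * μ) - μ * avg (fun x => 1 - (u x) ^ 2))
      ≤ ∑ i, (if i ∈ J then 0 else avg (fun x => cost (u x) (u (flp i x)))) := by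
  have hpt : ∀ z : Fin n → Bool,
      (1 / 2) * ((1 - (Av J u z) ^ 2) * Real.log (2 * μ)
          - μ * Av J (fun x => 1 - (u x) ^ 2) z)
        ≤ energy (fun w => u (mrg J z w)) := by
    intro z
    have hv : ∀ w, |u (mrg J z w)| < 1 := fun w => hu _
    have h1 := energy_ge (fun w => u (mrg J z w)) hv
    have hB : 0 < 1 - (Av J u z) ^ 2 := by
      have := abs_lt.mp (avg_lt_one hv)
      have e : Av J u z = avg (fun w => u (mrg J z w)) := rfl
      rw [e]
      nlinarith
    have hV : 0 < Av J (fun x => 1 - (u x) ^ 2) z := by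
      apply avg_pos
      intro w
      have := abs_lt.mp (hu (mrg J z w))
      nlinarith
    have h2 := W_linear hB hV hμ
    exact h2.trans h1
  have hav := avg_le_avg hpt
  have hleft : avg (fun z => (1 / 2) * ((1 - (Av J u z) ^ 2) * Real.log (2 * μ)
          - μ * Av J (fun x => 1 - (u x) ^ 2) z))
      = (1 / 2) * ((1 - SS J u) * Real.log (2 * μ) - μ * avg (fun x => 1 - (u x) ^ 2)) := by
    rw [avg_mul_left, avg_sub, avg_mul_right, avg_mul_left, avg_sub, avg_const, avg_Av]
    rfl
  rw [hleft] at hav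
  refine hav.trans (le_of_eq ?_)
  unfold energy
  rw [avg_sum]
  apply Finset.sum_congr rfl
  intro i _
  by_cases hi : i ∈ J
  · rw [if_pos hi]
    simp only [mrg_flp_mem hi, cost_self]
    have : avg (fun _w : Fin n → Bool => (0 : ℝ)) = 0 := avg_const 0
    simp only [this]
  · rw [if_neg hi]
    simp only [mrg_flp_not_mem hi]
    exact avg_Av J (fun x => cost (u x) (u (flp i x)))

/-- The two-block form of the log-gain inequality. -/
theorem two_block {u : (Fin n → Bool) → ℝ} (hu : ∀ x, |u x| < 1) (I : Finset (Fin n))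
    {μ : ℝ} (hμ : 0 < μ) :
    (1 / 2) * ((2 - SS I u - SS Iᶜ u) * Real.log (2 * μ) - 2 * μ * avg (fun x => 1 - (u x) ^ 2))
      ≤ energy u := by
  have h1 := block_bound hu I hμ
  have h2 := block_bound hu Iᶜ hμ
  have h3 : energy u = ∑ i, (if i ∈ I then 0 else avg (fun x => cost (u x) (u (flp i x))))
      + ∑ i, (if i ∈ Iᶜ then 0 else avg (fun x => cost (u x) (u (flp i x)))) := by
    unfold energy
    rw [← Finset.sum_add_distrib]
    apply Finset.sum_congr rfl
    intro i _
    by_cases hi : i ∈ I <;> simp [hi]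
  rw [h3]
  nlinarith

/-- Symmetrisation of the quadratic difference. -/
lemma avg_mul_sub_flp (g : (Fin n → Bool) → ℝ) (i : Fin n) :
    avg (fun x => g x * (g x - g (flp i x))) = (1 / 2) * avg (fun x => (g x - g (flp i x)) ^ 2) := by
  have h1 := avg_comp_flp i (fun x => (g x) ^ 2)
  have e1 : (fun x => g x * (g x - g (flp i x)))
      = fun x => (g x) ^ 2 - g x * g (flp i x) := by
    funext x; ring
  have e2 : (fun x => (g x - g (flp i x)) ^ 2)
      = fun x => (g x) ^ 2 + (g (flp i x)) ^ 2 - 2 * (g x * g (flp i x)) := by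
    funext x; ring
  rw [e1, e2, avg_sub, avg_sub, avg_add, avg_mul_left, h1]
  ring

lemma avg_nonneg {g : (Fin n → Bool) → ℝ} (h : ∀ x, 0 ≤ g x) : 0 ≤ avg g := by
  have := avg_le_avg (g := fun _ => (0 : ℝ)) (h := g) h
  rwa [avg_const] at this

lemma hasDerivAt_avg {G : ℝ → (Fin n → Bool) → ℝ} {G' : (Fin n → Bool) → ℝ} {t : ℝ}
    (h : ∀ w, HasDerivAt (fun s => G s w) (G' w) t) :
    HasDerivAt (fun s => avg (G s)) (avg G') t := by
  unfold avg
  exact (HasDerivAt.fun_sum (u := Finset.univ) (fun w _ => h w)).div_const _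

/-- The derivative of a conditional expectation along the semigroup. -/
lemma hasDerivAt_Av (I : Finset (Fin n)) (F : (Fin n → Bool) → ℝ) (t : ℝ) (x : Fin n → Bool) :
    HasDerivAt (fun s => Av I (UU F s) x)
      (-(1 / 2) * ∑ i, (Av I (UU F t) x
        - (if i ∈ I then Av I (UU F t) (flp i x) else Av I (UU F t) x))) t := by
  have h := hasDerivAt_avg (G := fun s w => UU F s (mrg I x w)) (t := t)
    (fun w => hasDerivAt_UU F t (mrg I x w))
  refine h.congr_deriv ?_
  rw [avg_mul_left, avg_sum]
  simp only [avg_sub]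
  congr 1
  apply Finset.sum_congr rfl
  intro i _
  congr 1
  by_cases hi : i ∈ I
  · rw [if_pos hi]
    simp only [flp_mrg_mem hi]
    rfl
  · rw [if_neg hi]
    simp only [← mrg_flp_not_mem hi]
    exact avg_comp_flp i (fun w => UU F t (mrg I x w))

lemma UU_zero (F : (Fin n → Bool) → ℝ) : UU F 0 = F := by
  funext y
  unfold UU
  have hkk : ∀ b c : Bool, kk 0 b c = if b = c then 1 else 0 := by
    intro b c
    unfold kk
    cases b <;> cases c <;> simp
  have hKK : ∀ x : Fin n → Bool, KK 0 x y = if x = y then 1 else 0 := by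
    intro x
    unfold KK
    simp only [hkk]
    by_cases hxy : x = y
    · subst hxy
      simp
    · rw [if_neg hxy]
      obtain ⟨i, hi⟩ := Function.ne_iff.mp hxy
      exact Finset.prod_eq_zero (Finset.mem_univ i) (if_neg hi)
  simp only [hKK, ite_mul, one_mul, zero_mul]
  simp

/-- The conditional quadratic mass decays along the semigroup. -/
theorem SS_UU_le (I : Finset (Fin n)) (F : (Fin n → Bool) → ℝ) {t : ℝ} (ht : 0 ≤ t) :
    SS I (UU F t) ≤ SS I F := by
  have hder : ∀ s : ℝ, HasDerivAt (fun r => SS I (UU F r))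
      (avg (fun x => 2 * Av I (UU F s) x * (-(1 / 2) * ∑ i, (Av I (UU F s) x
        - (if i ∈ I then Av I (UU F s) (flp i x) else Av I (UU F s) x))))) s := by
    intro s
    have h := hasDerivAt_avg (G := fun r x => (Av I (UU F r) x) ^ 2) (t := s)
      (G' := fun x => 2 * Av I (UU F s) x * (-(1 / 2) * ∑ i, (Av I (UU F s) x
        - (if i ∈ I then Av I (UU F s) (flp i x) else Av I (UU F s) x))))
      (fun x => by
        have := (hasDerivAt_Av I F s x).pow 2
        refine this.congr_deriv ?_
        simp)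
    exact h
  have hneg : ∀ s : ℝ, avg (fun x => 2 * Av I (UU F s) x * (-(1 / 2) * ∑ i, (Av I (UU F s) x
        - (if i ∈ I then Av I (UU F s) (flp i x) else Av I (UU F s) x)))) ≤ 0 := by
    intro s
    set g : (Fin n → Bool) → ℝ := Av I (UU F s) with hg
    have e : (fun x => 2 * g x * (-(1 / 2) * ∑ i, (g x
        - (if i ∈ I then g (flp i x) else g x))))
        = fun x => -∑ i, (g x * (g x - (if i ∈ I then g (flp i x) else g x))) := by
      funext x
      rw [Finset.mul_sum, Finset.mul_sum, ← Finset.sum_neg_distrib]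
      apply Finset.sum_congr rfl
      intro i _
      ring
    rw [e]
    have e2 : avg (fun x => -∑ i, (g x * (g x - (if i ∈ I then g (flp i x) else g x))))
        = -∑ i, avg (fun x => g x * (g x - (if i ∈ I then g (flp i x) else g x))) := by
      rw [← avg_sum]
      have : (fun x => -∑ i, (g x * (g x - (if i ∈ I then g (flp i x) else g x))))
          = fun x => (-1) * ∑ i, (g x * (g x - (if i ∈ I then g (flp i x) else g x))) := by
        funext x; ring
      rw [this, avg_mul_left]
      ring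
    rw [e2]
    have : 0 ≤ ∑ i, avg (fun x => g x * (g x - (if i ∈ I then g (flp i x) else g x))) := by
      apply Finset.sum_nonneg
      intro i _
      by_cases hi : i ∈ I
      · simp only [if_pos hi]
        rw [avg_mul_sub_flp]
        have := avg_nonneg (g := fun x => (g x - g (flp i x)) ^ 2) (fun x => sq_nonneg _)
        linarith
      · simp only [if_neg hi]
        apply avg_nonneg
        intro x
        simp
    linarith
  have hanti : Antitone (fun r => SS I (UU F r)) := by
    apply antitone_of_deriv_nonpos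
    · exact fun s => (hder s).differentiableAt
    · intro s
      rw [(hder s).deriv]
      exact hneg s
  have h0 := hanti ht
  simp only [UU_zero] at h0
  exact h0

/-- The derivative of the quadratic mass. -/
lemma hasDerivAt_avg_sq (F : (Fin n → Bool) → ℝ) (t : ℝ) :
    HasDerivAt (fun s => avg (fun y => (UU F s y) ^ 2))
      (-(1 / 2) * ∑ i, avg (fun y => (UU F t y - UU F t (flp i y)) ^ 2)) t := by
  have h := hasDerivAt_avg (G := fun r x => (UU F r x) ^ 2) (t := t)
    (G' := fun x => 2 * UU F t x * (-(1 / 2) * ∑ i, (UU F t x - UU F t (flp i x))))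
    (fun x => by
      have := (hasDerivAt_UU F t x).pow 2
      refine this.congr_deriv ?_
      simp)
  refine h.congr_deriv ?_
  set g : (Fin n → Bool) → ℝ := UU F t with hg
  have e : (fun x => 2 * g x * (-(1 / 2) * ∑ i, (g x - g (flp i x))))
      = fun x => (-1) * ∑ i, (g x * (g x - g (flp i x))) := by
    funext x
    rw [Finset.mul_sum, Finset.mul_sum, Finset.mul_sum]
    apply Finset.sum_congr rfl
    intro i _
    ring
  rw [e, avg_mul_left, avg_sum]
  simp only [avg_mul_sub_flp]
  rw [← Finset.mul_sum]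
  ring

end Vale.Agent.P322
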