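import Vale.Agent.P322.Split

namespace Vale.Agent.P322

open Real Finset

variable {n : ℕ}

lemma T_ge {e T : ℝ} (hT : Real.exp (-T) = 1 - 2 * e) : 2 * e ≤ T := by
  have := Real.add_one_le_exp (-T)
  rw [hT] at this
  linarith

lemma abs_le_one_of_sq {F : (Fin n → Bool) → ℝ} (hF : ∀ x, (F x) ^ 2 = 1) (x : Fin n → Bool) :
    |F x| ≤ 1 := by
  rw [← sq_le_one_iff_abs_le_one]; exact (hF x).le

lemma eq_or_of_sq {a : ℝ} (h : a ^ 2 = 1) : a = 1 ∨ a = -1 := by
  have : (a - 1) * (a + 1) = 0 := by nlinarith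
  rcases mul_eq_zero.mp this with h1 | h1
  · left; linarith
  · right; linarith

lemma entropy_half_nonneg {a : ℝ} (ha : |a| ≤ 1) : 0 ≤ Real.binEntropy ((1 + a) / 2) := by
  have := abs_le.mp ha
  exact Real.binEntropy_nonneg (by linarith) (by linarith)

/-- **Case A**: a function with a block decomposition far from splitting. -/
theorem caseA {F : (Fin n → Bool) → ℝ} (hF : ∀ x, (F x) ^ 2 = 1) {I : Finset (Fin n)}
    (hI : SS I F + SS Iᶜ F ≤ 1 + (avg F) ^ 2 - 1 / 30) {e : ℝ} (he0 : 0 < e)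
    (hl : 500 ≤ Real.log (1 / e)) (hm2 : (avg F) ^ 2 ≤ 2 * Real.binEntropy e) {T : ℝ} (hT0 : 0 < T)
    (hTe : Real.exp (-T) = 1 - 2 * e) (hn1 : ∃ x, F x < 1) (hn2 : ∃ x, -1 < F x) :
    Real.binEntropy e ≤ HH F T := by
  by_contra hlt
  push Not at hlt
  obtain ⟨he1, hehl⟩ := eps_facts he0 hl
  set l : ℝ := Real.log (1 / e) with hldef
  set h : ℝ := Real.binEntropy e with hh
  have hh0 : 0 < h := Real.binEntropy_pos he0 (by linarith)
  have hhle : h ≤ e * (l + 1) := binEntropy_le_mul (by linarith)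
  have hF1 := abs_le_one_of_sq hF
  have hU : ∀ t : ℝ, 0 < t → ∀ y, |UU F t y| < 1 := fun t ht y =>
    abs_UU_lt_gen hF1 hn1 hn2 ht y
  have hlog2 := Real.log_two_gt_d9
  have hlog2' := Real.log_two_lt_d9
  have hlogpos : 0 < Real.log 2 := by linarith
  set μ : ℝ := Real.log 2 / h with hμ
  have hμ0 : 0 < μ := by positivity
  set L : ℝ := Real.log (2 * μ) with hLdef
  have hL1 : l - Real.log (l + 1) ≤ L := by
    have h1 := log_div_entropy (c := 2 * Real.log 2) (h := h) (by positivity) hh0 he0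
      (by linarith) hhle
    have e1 : 2 * Real.log 2 / h = 2 * μ := by rw [hμ]; ring
    rw [e1, ← hLdef, ← hldef] at h1
    have h2 : 0 ≤ Real.log (2 * Real.log 2) := Real.log_nonneg (by linarith)
    linarith
  have hlogl := log_succ_bound (l := l) (by linarith)
  have hLpos : 0 ≤ L := by linarith
  set C : ℝ := (1 / 2) * (1.03 * L - 2) with hC
  have hode := ode_bound (Y := HH F) (Y' := fun t => energy (UU F t)) (T := T) (b := h) (C := C)
    hT0 (continuous_HH F).continuousOn
    (fun t ht => hasDerivAt_HH F (hU t ht.1))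
    (fun t ht => energy_nonneg (hU t ht.1))
    (fun t ht hY => by
      have two := two_block (hU t ht.1) I hμ0
      have hS1 := SS_UU_le I F ht.1.le
      have hS2 := SS_UU_le Iᶜ F ht.1.le
      have hV := V_le_gen (u := UU F t) (fun y => (hU t ht.1 y).le)
      have hV2 : avg (fun y => 1 - (UU F t y) ^ 2) * Real.log 2 ≤ h := hV.trans hY
      have hμV : μ * avg (fun y => 1 - (UU F t y) ^ 2) ≤ 1 := by
        rw [hμ, div_mul_eq_mul_div, div_le_one hh0]
        linarith
      have hA : 1.03 ≤ 2 - SS I (UU F t) - SS Iᶜ (UU F t) := by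
        norm_num at hehl ⊢
        linarith
      have hAL := mul_le_mul_of_nonneg_right hA hLpos
      show C ≤ energy (UU F t)
      rw [hC]
      refine le_trans ?_ two
      nlinarith)
    hlt
  have hH0 : 0 ≤ HH F 0 := by
    rw [HH_zero]
    exact avg_nonneg (fun y => entropy_half_nonneg (hF1 y))
  have hT2 := T_ge hTe
  have hnum : l + 1 ≤ 2 * C := by
    rw [hC]
    norm_num at hlogl ⊢
    nlinarith
  have hC0 : 0 ≤ C := by
    linarith
  have h1 : C * (2 * e) ≤ C * T := mul_le_mul_of_nonneg_left hT2 hC0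
  have h2 : e * (l + 1) ≤ e * (2 * C) := mul_le_mul_of_nonneg_left hnum he0.le
  nlinarith

end Vale.Agent.P322
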