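import Vale.Agent.P322.CaseA

namespace Vale.Agent.P322

open Real Finset

variable {n : ℕ}

lemma energy_linear {u : (Fin n → Bool) → ℝ} (hu : ∀ x, |u x| < 1) {μ : ℝ} (hμ : 0 < μ) :
    (1 / 2) * ((1 - (avg u) ^ 2) * Real.log (2 * μ) - μ * avg (fun x => 1 - (u x) ^ 2))
      ≤ energy u := by
  have h1 := energy_ge u hu
  have hB : 0 < 1 - (avg u) ^ 2 := by
    have := abs_lt.mp (avg_lt_one hu)
    nlinarith
  have hV : 0 < avg (fun x => 1 - (u x) ^ 2) := by
    apply avg_pos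
    intro x
    have := abs_lt.mp (hu x)
    nlinarith
  exact (W_linear hB hV hμ).trans h1

/-- A point where the two restrictions differ in the expected way. -/
lemma exists_sep {F : (Fin n → Bool) → ℝ} (hF : ∀ x, (F x) ^ 2 = 1) {j : Fin n}
    (hpq : 1 ≤ avg (gp F j) - avg (gm F j)) : ∃ x, gp F j x = 1 ∧ gm F j x = -1 := by
  by_contra hno
  push Not at hno
  have hle : ∀ x, gp F j x - gm F j x ≤ 0 := by
    intro x
    rcases eq_or_of_sq (hF (Function.update x j true)) with h1 | h1 <;>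
      rcases eq_or_of_sq (hF (Function.update x j false)) with h2 | h2
    · have e1 : gp F j x = 1 := h1
      have e2 : gm F j x = 1 := h2
      rw [e1, e2]; norm_num
    · exact absurd h2 (hno x h1)
    · have e1 : gp F j x = -1 := h1
      have e2 : gm F j x = 1 := h2
      rw [e1, e2]; norm_num
    · have e1 : gp F j x = -1 := h1
      have e2 : gm F j x = -1 := h2
      rw [e1, e2]; norm_num
  have := avg_le_avg hle
  rw [avg_const, avg_sub] at this
  linarith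

lemma abs_mix_le {a b e : ℝ} (ha : |a| ≤ 1) (hb : |b| ≤ 1) (he0 : 0 ≤ e) (he1 : e ≤ 1) :
    |(1 - e) * a + e * b| ≤ 1 := by
  have ha' := abs_le.mp ha
  have hb' := abs_le.mp hb
  rw [abs_le]
  constructor <;> nlinarith

lemma abs_mixP_le {F : (Fin n → Bool) → ℝ} (hF : ∀ x, (F x) ^ 2 = 1) (j : Fin n) {e : ℝ}
    (he0 : 0 ≤ e) (he1 : e ≤ 1) (x : Fin n → Bool) : |mixP e F j x| ≤ 1 :=
  abs_mix_le (abs_le_one_of_sq hF _) (abs_le_one_of_sq hF _) he0 he1

lemma abs_mixM_le {F : (Fin n → Bool) → ℝ} (hF : ∀ x, (F x) ^ 2 = 1) (j : Fin n) {e : ℝ}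
    (he0 : 0 ≤ e) (he1 : e ≤ 1) (x : Fin n → Bool) : |mixM e F j x| ≤ 1 := by
  have := abs_mix_le (abs_le_one_of_sq hF (Function.update x j false))
    (abs_le_one_of_sq hF (Function.update x j true)) he0 he1
  unfold mixM gp gm
  rwa [add_comm] at this

lemma abs_UU_mixP {F : (Fin n → Bool) → ℝ} (hF : ∀ x, (F x) ^ 2 = 1) {j : Fin n}
    (hpq : 1 ≤ avg (gp F j) - avg (gm F j)) {e : ℝ} (he0 : 0 < e) (he1 : e < 1 / 2)
    {t : ℝ} (ht : 0 < t) (y : Fin n → Bool) : |UU (mixP e F j) t y| < 1 := by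
  obtain ⟨x, h1, h2⟩ := exists_sep hF hpq
  have hx : mixP e F j x = 1 - 2 * e := by
    unfold mixP; rw [h1, h2]; ring
  exact abs_UU_lt_gen (abs_mixP_le hF j he0.le (by linarith))
    ⟨x, by rw [hx]; linarith⟩ ⟨x, by rw [hx]; linarith⟩ ht y

lemma abs_UU_mixM {F : (Fin n → Bool) → ℝ} (hF : ∀ x, (F x) ^ 2 = 1) {j : Fin n}
    (hpq : 1 ≤ avg (gp F j) - avg (gm F j)) {e : ℝ} (he0 : 0 < e) (he1 : e < 1 / 2)
    {t : ℝ} (ht : 0 < t) (y : Fin n → Bool) : |UU (mixM e F j) t y| < 1 := by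
  obtain ⟨x, h1, h2⟩ := exists_sep hF hpq
  have hx : mixM e F j x = 2 * e - 1 := by
    unfold mixM; rw [h1, h2]; ring
  exact abs_UU_lt_gen (abs_mixM_le hF j he0.le (by linarith))
    ⟨x, by rw [hx]; linarith⟩ ⟨x, by rw [hx]; linarith⟩ ht y

/-- The starting value of the entropy of the two mixtures. -/
lemma HH_mix_zero {F : (Fin n → Bool) → ℝ} (hF : ∀ x, (F x) ^ 2 = 1) (j : Fin n) {e : ℝ}
    (he0 : 0 ≤ e) (he1 : e ≤ 1) :
    Real.binEntropy e * ((avg (gp F j) - avg (gm F j)) / 2) ≤ HH (mixP e F j) 0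
    ∧ Real.binEntropy e * ((avg (gp F j) - avg (gm F j)) / 2) ≤ HH (mixM e F j) 0 := by
  have hh0 : 0 ≤ Real.binEntropy e := Real.binEntropy_nonneg he0 he1
  have hone : Real.binEntropy (1 - e) = Real.binEntropy e := Real.binEntropy_one_sub e
  have hpos : ∀ a b : ℝ, a = 1 ∨ a = -1 → b = 1 ∨ b = -1 →
      Real.binEntropy e * ((a - b) / 2) ≤ Real.binEntropy ((1 + ((1 - e) * a + e * b)) / 2)
      ∧ Real.binEntropy e * ((a - b) / 2) ≤ Real.binEntropy ((1 + (e * a + (1 - e) * b)) / 2) := by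
    intro a b ha hb
    rcases ha with rfl | rfl <;> rcases hb with rfl | rfl
    · have e1 : (1 + ((1 - e) * 1 + e * 1)) / 2 = 1 := by ring
      have e2 : (1 + (e * 1 + (1 - e) * 1)) / 2 = 1 := by ring
      rw [e1, e2]
      simp
    · have e1 : (1 + ((1 - e) * 1 + e * -1)) / 2 = 1 - e := by ring
      have e2 : (1 + (e * 1 + (1 - e) * -1)) / 2 = e := by ring
      rw [e1, e2, hone]
      constructor <;> linarith
    · have e1 : (1 + ((1 - e) * -1 + e * 1)) / 2 = e := by ring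
      have e2 : (1 + (e * -1 + (1 - e) * 1)) / 2 = 1 - e := by ring
      rw [e1, e2, hone]
      constructor <;> linarith
    · have e1 : (1 + ((1 - e) * -1 + e * -1)) / 2 = 0 := by ring
      have e2 : (1 + (e * -1 + (1 - e) * -1)) / 2 = 0 := by ring
      rw [e1, e2]
      simp
  have hmean : avg (fun x => Real.binEntropy e * ((gp F j x - gm F j x) / 2))
      = Real.binEntropy e * ((avg (gp F j) - avg (gm F j)) / 2) := by
    have e1 : (fun x => Real.binEntropy e * ((gp F j x - gm F j x) / 2))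
        = fun x => (Real.binEntropy e / 2) * (gp F j x - gm F j x) := by
      funext x; ring
    rw [e1, avg_mul_left, avg_sub]
    ring
  rw [HH_zero, HH_zero, ← hmean]
  constructor
  · apply avg_le_avg
    intro x
    exact (hpos _ _ (eq_or_of_sq (hF _)) (eq_or_of_sq (hF _))).1
  · apply avg_le_avg
    intro x
    exact (hpos _ _ (eq_or_of_sq (hF _)) (eq_or_of_sq (hF _))).2

/-- Real-variable core of the moderate route. -/
lemma mod_arith {EP EM VP VM HP HM p q e h B0 μ L : ℝ} (he0 : 0 < e) (he1 : e < 1 / 2)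
    (hh0 : 0 < h) (hB0 : 0 < B0) (hμ : μ = B0 * Real.log 2 / h)
    (hL : 1 ≤ L)
    (hB0le : B0 ≤ 1 - ((p + q) / 2) ^ 2 - ((p - q) / 2) ^ 2)
    (hEP : (1 / 2) * ((1 - ((1 - e) * p + e * q) ^ 2) * L - μ * VP) ≤ EP)
    (hEM : (1 / 2) * ((1 - (e * p + (1 - e) * q) ^ 2) * L - μ * VM) ≤ EM)
    (hVP : VP * Real.log 2 ≤ HP) (hVM : VM * Real.log 2 ≤ HM) (hY : (HP + HM) / 2 ≤ h) :
    (B0 / 2) * (L - 1) ≤ (EP + EM) / 2 := by
  have hμV : μ * ((VP + VM) / 2) ≤ B0 := by
    have h1 : ((VP + VM) / 2) * Real.log 2 ≤ h := by linarith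
    rw [hμ, div_mul_eq_mul_div, div_le_iff₀ hh0]
    have := mul_le_mul_of_nonneg_left h1 hB0.le
    linarith
  have hBbar : B0 ≤ ((1 - ((1 - e) * p + e * q) ^ 2) + (1 - (e * p + (1 - e) * q) ^ 2)) / 2 := by
    have hcc : ((1 - 2 * e) * ((p - q) / 2)) ^ 2 ≤ ((p - q) / 2) ^ 2 := by
      have h1 : (1 - 2 * e) ^ 2 ≤ 1 := by nlinarith
      rw [mul_pow]
      have h2 := sq_nonneg ((p - q) / 2)
      have := mul_le_mul_of_nonneg_right h1 h2
      linarith
    have e1 : ((1 - ((1 - e) * p + e * q) ^ 2) + (1 - (e * p + (1 - e) * q) ^ 2)) / 2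
        = 1 - ((p + q) / 2) ^ 2 - ((1 - 2 * e) * ((p - q) / 2)) ^ 2 := by ring
    rw [e1]
    linarith
  have hLpos : 0 ≤ L := by linarith
  have hBL := mul_le_mul_of_nonneg_right hBbar hLpos
  have e2 : (B0 / 2) * (L - 1) = (1 / 2) * (B0 * L - B0) := by ring
  have e3 : (EP + EM) / 2 ≥ (1 / 2) * (((1 - ((1 - e) * p + e * q) ^ 2) + (1 - (e * p + (1 - e) * q) ^ 2)) / 2 * L
      - μ * ((VP + VM) / 2)) := by
    have e4 : (1 / 2) * (((1 - ((1 - e) * p + e * q) ^ 2) + (1 - (e * p + (1 - e) * q) ^ 2)) / 2 * L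
      - μ * ((VP + VM) / 2))
      = ((1 / 2) * ((1 - ((1 - e) * p + e * q) ^ 2) * L - μ * VP)
        + (1 / 2) * ((1 - (e * p + (1 - e) * q) ^ 2) * L - μ * VM)) / 2 := by ring
    rw [e4]
    linarith
  rw [e2]
  linarith

/-- The moderate route: the energy of the two mixtures recovers the initial deficit. -/
theorem caseB_mod {F : (Fin n → Bool) → ℝ} (hF : ∀ x, (F x) ^ 2 = 1) {j : Fin n} {e : ℝ}
    (he0 : 0 < e) (he1 : e < 1 / 2) {T : ℝ} (hT0 : 0 < T) (hTe : Real.exp (-T) = 1 - 2 * e)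
    (hpq : 1 ≤ avg (gp F j) - avg (gm F j)) {B0 : ℝ} (hB0 : 0 < B0)
    (hB0le : B0 ≤ 1 - (avg F) ^ 2 - ((avg (gp F j) - avg (gm F j)) / 2) ^ 2)
    (hL : 1 ≤ Real.log (2 * (B0 * Real.log 2 / Real.binEntropy e)))
    (hnum : (1 - (avg (gp F j) - avg (gm F j)) / 2) * Real.binEntropy e
      ≤ e * B0 * (Real.log (2 * (B0 * Real.log 2 / Real.binEntropy e)) - 1)) :
    Real.binEntropy e ≤ HH F T := by
  rw [HH_split F j hTe]
  by_contra hlt
  push Not at hlt
  have hh0 : 0 < Real.binEntropy e := Real.binEntropy_pos he0 (by linarith)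
  have hlog2 := Real.log_two_gt_d9
  have hlogpos : 0 < Real.log 2 := by linarith
  have hμ0 : 0 < B0 * Real.log 2 / Real.binEntropy e := by positivity
  have hUP : ∀ t : ℝ, 0 < t → ∀ y, |UU (mixP e F j) t y| < 1 := fun t ht y =>
    abs_UU_mixP hF hpq he0 he1 ht y
  have hUM : ∀ t : ℝ, 0 < t → ∀ y, |UU (mixM e F j) t y| < 1 := fun t ht y =>
    abs_UU_mixM hF hpq he0 he1 ht y
  have hmean : avg F = (avg (gp F j) + avg (gm F j)) / 2 := avg_eq_gp_gm F j
  rw [hmean] at hB0le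
  have hode := ode_bound (Y := fun t => (HH (mixP e F j) t + HH (mixM e F j) t) / 2)
    (Y' := fun t => (energy (UU (mixP e F j) t) + energy (UU (mixM e F j) t)) / 2) (T := T)
    (b := Real.binEntropy e)
    (C := (B0 / 2) * (Real.log (2 * (B0 * Real.log 2 / Real.binEntropy e)) - 1))
    hT0 (((continuous_HH _).add (continuous_HH _)).div_const 2).continuousOn
    (fun t ht => ((hasDerivAt_HH _ (hUP t ht.1)).add (hasDerivAt_HH _ (hUM t ht.1))).div_const 2)
    (fun t ht => by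
      have h1 := energy_nonneg (hUP t ht.1)
      have h2 := energy_nonneg (hUM t ht.1)
      show 0 ≤ (energy (UU (mixP e F j) t) + energy (UU (mixM e F j) t)) / 2
      linarith)
    (fun t ht hY => by
      have hEP := energy_linear (hUP t ht.1) hμ0
      have hEM := energy_linear (hUM t ht.1) hμ0
      rw [avg_UU, avg_mixP] at hEP
      rw [avg_UU, avg_mixM] at hEM
      have hVP := V_le_gen (u := UU (mixP e F j) t) (fun y => (hUP t ht.1 y).le)
      have hVM := V_le_gen (u := UU (mixM e F j) t) (fun y => (hUM t ht.1 y).le)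
      exact mod_arith he0 he1 hh0 hB0 rfl hL hB0le hEP hEM hVP hVM hY)
    hlt
  have hT2 := T_ge hTe
  have hC0 : 0 ≤ (B0 / 2) * (Real.log (2 * (B0 * Real.log 2 / Real.binEntropy e)) - 1) :=
    mul_nonneg (by linarith) (by linarith)
  have hC2 := mul_le_mul_of_nonneg_left hT2 hC0
  have hz := HH_mix_zero hF j he0.le (by linarith : e ≤ 1)
  have hz1 := hz.1
  have hz2 := hz.2
  have hodeb : (HH (mixP e F j) 0 + HH (mixM e F j) 0) / 2
      + (B0 / 2) * (Real.log (2 * (B0 * Real.log 2 / Real.binEntropy e)) - 1) * T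
      ≤ (HH (mixP e F j) T + HH (mixM e F j) T) / 2 := hode
  nlinarith

end Vale.Agent.P322
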