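import Vale.Agent.P322.CaseB

namespace Vale.Agent.P322

open Real Finset

variable {n : ℕ}

lemma mod_B0_big {g m2 h : ℝ} (hg : 0.01 ≤ g) (hg1 : g ≤ 1 / 4) (hm : m2 ≤ 2 * h)
    (hh : h ≤ 1 / 20000) : 2.9 * g ≤ 4 * g * (1 - g) - m2 := by
  have h1 : 0 ≤ g * (1 - 4 * g) := mul_nonneg (by linarith) (by linarith)
  norm_num at hg ⊢
  linarith

lemma mod_B0_small {g m2 : ℝ} (hg0 : 0 < g) (hg : g < 0.01) (hm : m2 ≤ (2 * g) ^ 2) :
    3.9 * g ≤ 4 * g * (1 - g) - m2 := by
  have h1 : 0 ≤ g * (0.01 - g) := mul_nonneg hg0.le (by linarith)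
  norm_num at hg h1 ⊢
  nlinarith

lemma num_big {l a L : ℝ} (hl : 500 ≤ l) (ha : a ≤ (l + 1) / 64 + 3.16)
    (hL : l - a - 3.47 ≤ L) : 2 * (l + 1) ≤ 2.9 * (L - 1) ∧ 1 ≤ L := by
  norm_num at ha hL ⊢
  constructor <;> linarith

lemma num_small {l a L : ℝ} (hl : 500 ≤ l) (ha : a ≤ (l + 1) / 64 + 3.16)
    (hL : 1 + 0.55 * l - a ≤ L) : 2 * (l + 1) ≤ 3.9 * (L - 1) ∧ 1 ≤ L := by
  norm_num at ha hL ⊢
  constructor <;> linarith

lemma log_one_div_32 : Real.log (1 / 32) = -(5 * Real.log 2) := by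
  rw [one_div, Real.log_inv]
  have : (32 : ℝ) = 2 ^ 5 := by norm_num
  rw [this, Real.log_pow]
  push_cast
  ring

/-- The bound on the logarithm and on the constant for a large deficit. -/
lemma mod_big_log {g : ℝ} (hg : 0.01 ≤ g) :
    -3.47 ≤ Real.log (2 * (2.9 * g) * Real.log 2) := by
  have hlog2 := Real.log_two_gt_d9
  have hlog2' := Real.log_two_lt_d9
  have h1 : 0.01 * 0.69 ≤ g * Real.log 2 :=
    mul_le_mul hg (by linarith) (by norm_num) (by linarith)
  have hc : Real.log (1 / 32) ≤ Real.log (2 * (2.9 * g) * Real.log 2) := by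
    apply Real.log_le_log (by norm_num)
    norm_num at h1 ⊢
    linarith
  rw [log_one_div_32] at hc
  norm_num at hlog2' ⊢
  linarith

lemma mod_small_log {g : ℝ} (hg0 : 0 < g) :
    1 + Real.log g ≤ Real.log (2 * (3.9 * g) * Real.log 2) := by
  have hlog2 := Real.log_two_gt_d9
  have h2 := Real.exp_one_lt_d9
  have h3 : Real.exp 1 ≤ 7.8 * Real.log 2 := by
    norm_num at hlog2 h2 ⊢
    linarith
  have h1 : Real.exp 1 * g ≤ 2 * (3.9 * g) * Real.log 2 := by
    have := mul_le_mul_of_nonneg_right h3 hg0.le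
    norm_num at this ⊢
    linarith
  have h4 := Real.log_le_log (by positivity) h1
  rwa [Real.log_mul (Real.exp_pos _).ne' hg0.ne', Real.log_exp] at h4

/-- The numerical form of the moderate route. -/
theorem caseB_moderate {F : (Fin n → Bool) → ℝ} (hF : ∀ x, (F x) ^ 2 = 1) {j : Fin n} {e : ℝ}
    (he0 : 0 < e) (hl : 500 ≤ Real.log (1 / e)) {T : ℝ} (hT0 : 0 < T)
    (hTe : Real.exp (-T) = 1 - 2 * e)
    (hm2 : (avg F) ^ 2 ≤ 2 * Real.binEntropy e)
    (hpq : 1 ≤ avg (gp F j) - avg (gm F j))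
    (hγ : Real.exp (-(0.45 * Real.log (1 / e)))
      ≤ (1 - (avg (gp F j) - avg (gm F j)) / 2) / 2) :
    Real.binEntropy e ≤ HH F T := by
  obtain ⟨he1, hehl⟩ := eps_facts he0 hl
  set l : ℝ := Real.log (1 / e) with hldef
  set h : ℝ := Real.binEntropy e with hh
  have hh0 : 0 < h := Real.binEntropy_pos he0 (by linarith)
  have hhle : h ≤ e * (l + 1) := binEntropy_le_mul (by linarith)
  have hhs : h ≤ 1 / 20000 := hhle.trans hehl
  have hlog2 := Real.log_two_gt_d9
  have hlogpos : 0 < Real.log 2 := by linarith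
  set p : ℝ := avg (gp F j) with hp
  set q : ℝ := avg (gm F j) with hq
  have hmean : avg F = (p + q) / 2 := avg_eq_gp_gm F j
  have hp1' := abs_le.mp (abs_avg_le_one (g := gp F j) (fun x => abs_le_one_of_sq hF _))
  have hq1' := abs_le.mp (abs_avg_le_one (g := gm F j) (fun x => abs_le_one_of_sq hF _))
  set g : ℝ := (1 - (p - q) / 2) / 2 with hg
  have hg0 : 0 < g := lt_of_lt_of_le (Real.exp_pos _) hγ
  have hg1 : g ≤ 1 / 4 := by rw [hg]; linarith
  have hlogg : -(0.45 * l) ≤ Real.log g := by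
    have := Real.log_le_log (Real.exp_pos _) hγ
    rwa [Real.log_exp] at this
  have hlogl := log_succ_bound (l := l) (by linarith)
  have hcsum : (p - q) / 2 = 1 - 2 * g := by rw [hg]; ring
  have hmg : |(p + q) / 2| ≤ 2 * g := by
    rw [abs_le, hg]
    constructor <;> linarith
  have hm2g : ((p + q) / 2) ^ 2 ≤ (2 * g) ^ 2 := sq_le_sq' (abs_le.mp hmg).1 (abs_le.mp hmg).2
  rw [hmean] at hm2
  have hone : 1 - ((p + q) / 2) ^ 2 - ((p - q) / 2) ^ 2
      = 4 * g * (1 - g) - ((p + q) / 2) ^ 2 := by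
    rw [hcsum]; ring
  have hcommon : ∀ B0 : ℝ, 0 < B0 → B0 ≤ 1 - ((p + q) / 2) ^ 2 - ((p - q) / 2) ^ 2 →
      1 ≤ Real.log (2 * (B0 * Real.log 2 / h)) →
      2 * g * (l + 1) ≤ B0 * (Real.log (2 * (B0 * Real.log 2 / h)) - 1) →
      h ≤ HH F T := by
    intro B0 hB0 hB0le hL hnum
    rw [← hmean] at hB0le
    refine caseB_mod hF he0 (by linarith) hT0 hTe hpq hB0 hB0le hL ?_
    have e1 : (1 - (p - q) / 2) = 2 * g := by rw [hcsum]; ring
    rw [e1]
    have h1 : 2 * g * h ≤ 2 * g * (e * (l + 1)) :=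
      mul_le_mul_of_nonneg_left hhle (by positivity)
    have h2 := mul_le_mul_of_nonneg_left hnum he0.le
    linarith
  have hlogform : ∀ B0 : ℝ, 0 < B0 →
      Real.log (2 * B0 * Real.log 2) + l - Real.log (l + 1)
        ≤ Real.log (2 * (B0 * Real.log 2 / h)) := by
    intro B0 hB0
    have h1 := log_div_entropy (c := 2 * B0 * Real.log 2) (h := h) (by positivity) hh0 he0
      (by linarith) hhle
    have e1 : 2 * B0 * Real.log 2 / h = 2 * (B0 * Real.log 2 / h) := by ring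
    rw [e1, ← hldef] at h1
    exact h1
  by_cases hbig : 0.01 ≤ g
  · have hB0 : 0 < 2.9 * g := by positivity
    have hB0le : 2.9 * g ≤ 1 - ((p + q) / 2) ^ 2 - ((p - q) / 2) ^ 2 := by
      rw [hone]
      exact mod_B0_big hbig hg1 hm2 hhs
    have hc := mod_big_log hbig
    have hform := hlogform (2.9 * g) hB0
    obtain ⟨h4, h5⟩ := num_big (a := Real.log (l + 1)) (L := Real.log (2 * (2.9 * g * Real.log 2 / h)))
      hl hlogl (by linarith)
    apply hcommon (2.9 * g) hB0 hB0le h5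
    have h6 := mul_le_mul_of_nonneg_left h4 hg0.le
    linarith
  · push Not at hbig
    have hB0 : 0 < 3.9 * g := by positivity
    have hB0le : 3.9 * g ≤ 1 - ((p + q) / 2) ^ 2 - ((p - q) / 2) ^ 2 := by
      rw [hone]
      exact mod_B0_small hg0 hbig hm2g
    have hc := mod_small_log hg0
    have hform := hlogform (3.9 * g) hB0
    obtain ⟨h4, h5⟩ := num_small (a := Real.log (l + 1)) (L := Real.log (2 * (3.9 * g * Real.log 2 / h)))
      hl hlogl (by norm_num at hlogg hc hform ⊢; linarith)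
    apply hcommon (3.9 * g) hB0 hB0le h5
    have h6 := mul_le_mul_of_nonneg_left h4 hg0.le
    linarith

end Vale.Agent.P322
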