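import Vale.Agent.P322.CaseB2

namespace Vale.Agent.P322

open Real Finset

variable {n : ℕ}

lemma UU_indicator_bounds {G : (Fin n → Bool) → ℝ} (hG : ∀ x, G x = 0 ∨ G x = 1) {t : ℝ}
    (ht : 0 < t) (y : Fin n → Bool) : 0 ≤ UU G t y ∧ UU G t y ≤ 1 := by
  have h0 : ∀ x, 0 ≤ G x := fun x => by rcases hG x with h | h <;> rw [h] <;> norm_num
  have h1 : ∀ x, G x ≤ 1 := fun x => by rcases hG x with h | h <;> rw [h] <;> norm_num
  constructor
  · exact Finset.sum_nonneg (fun x _ => mul_nonneg (KK_pos ht x y).le (h0 x))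
  · have : 0 ≤ 1 - UU G t y := by
      rw [one_sub_UU]
      exact Finset.sum_nonneg (fun x _ => mul_nonneg (KK_pos ht x y).le (by linarith [h1 x]))
    linarith

lemma UU_indicator_pos {G : (Fin n → Bool) → ℝ} (hG : ∀ x, G x = 0 ∨ G x = 1) {x1 : Fin n → Bool}
    (hx1 : G x1 = 1) {t : ℝ} (ht : 0 < t) (y : Fin n → Bool) : 0 < UU G t y := by
  have h0 : ∀ x, 0 ≤ G x := fun x => by rcases hG x with h | h <;> rw [h] <;> norm_num
  exact Finset.sum_pos' (fun x _ => mul_nonneg (KK_pos ht x y).le (h0 x))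
    ⟨x1, Finset.mem_univ _, by rw [hx1, mul_one]; exact KK_pos ht x1 y⟩

/-- Real-variable part of the entropy estimate for small sets. -/
lemma ent_lower {v : (Fin n → Bool) → ℝ} (hv0 : ∀ y, 0 < v y) (hv1 : ∀ y, v y ≤ 1) {γ Λ : ℝ}
    (hΛ0 : 0 ≤ Λ) (hΛ : Λ ≤ Real.log (1 / γ)) (havg : avg v = γ)
    (hY : γ - avg (fun y => (v y) ^ 2) ≤ γ / 100) :
    γ * (0.99 * Λ - 0.02) ≤ ent v := by
  set Q : ℝ := avg (fun y => (v y) ^ 2) with hQ
  have hQ0 : 0 < Q := avg_pos (fun y => by have := hv0 y; positivity)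
  have hYY : avg (fun y => v y * (1 - v y)) = γ - Q := by
    have e : (fun y => v y * (1 - v y)) = fun y => v y - (v y) ^ 2 := by
      funext y; ring
    rw [e, avg_sub, havg]
  have hY0 : 0 ≤ γ - Q := by
    rw [← hYY]
    exact avg_nonneg (fun y => mul_nonneg (hv0 y).le (by linarith [hv1 y]))
  have hpt : ∀ y, -2 * (v y * (1 - v y)) ≤ (v y) ^ 2 * Real.log ((v y) ^ 2) := by
    intro y
    have h1 := Real.one_sub_inv_le_log_of_pos (hv0 y)
    have hv := hv0 y
    rw [Real.log_pow]
    push_cast
    have h2 := mul_le_mul_of_nonneg_left h1 (by positivity : 0 ≤ 2 * (v y) ^ 2)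
    have h3 : 2 * (v y) ^ 2 * (1 - (v y)⁻¹) = -2 * (v y * (1 - v y)) := by
      field_simp
      ring
    rw [h3] at h2
    linarith
  have hav := avg_le_avg hpt
  rw [avg_mul_left, hYY] at hav
  have hlogQ : Real.log Q ≤ -Λ := by
    have h1 : Real.log Q ≤ Real.log γ := Real.log_le_log hQ0 (by linarith)
    have h2 : Real.log (1 / γ) = - Real.log γ := by
      rw [one_div, Real.log_inv]
    linarith
  have hmul : Q * Λ ≤ - (Q * Real.log Q) := by
    have := mul_le_mul_of_nonneg_left hlogQ hQ0.le
    linarith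
  have hQΛ : 0.99 * γ * Λ ≤ Q * Λ :=
    mul_le_mul_of_nonneg_right (by norm_num at hY ⊢; linarith) hΛ0
  unfold ent
  rw [← hQ]
  have e : γ * (0.99 * Λ - 0.02) = 0.99 * γ * Λ - 0.02 * γ := by ring
  rw [e]
  have h5 : -(0.02 * γ) ≤ -2 * (γ - Q) := by
    norm_num at hY ⊢
    linarith
  linarith

/-- Small sets are noise-sensitive: the quadratic defect along the semigroup. -/
theorem tiny_L {G : (Fin n → Bool) → ℝ} (hG : ∀ x, G x = 0 ∨ G x = 1) {Λ : ℝ} (hΛ0 : 0 ≤ Λ)
    (hΛ : 0 < avg G → Λ ≤ Real.log (1 / avg G)) {T : ℝ} (hT : 0 < T) :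
    0 ≤ avg (fun y => UU G T y * (1 - UU G T y))
    ∧ (avg G / 100 ≤ avg (fun y => UU G T y * (1 - UU G T y))
      ∨ T * (avg G * (0.99 * Λ - 0.02)) ≤ avg (fun y => UU G T y * (1 - UU G T y))) := by
  set γ : ℝ := avg G with hγ
  have h0 : ∀ x, 0 ≤ G x := fun x => by rcases hG x with h | h <;> rw [h] <;> norm_num
  have hγ0 : 0 ≤ γ := avg_nonneg h0
  have hL0 : 0 ≤ avg (fun y => UU G T y * (1 - UU G T y)) := by
    apply avg_nonneg
    intro y
    have := UU_indicator_bounds hG hT y
    exact mul_nonneg this.1 (by linarith [this.2])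
  refine ⟨hL0, ?_⟩
  rcases hγ0.eq_or_lt with hzero | hpos
  · right
    rw [← hzero]
    simpa using hL0
  have hL := hΛ hpos
  have hYform : ∀ t : ℝ, avg (fun y => UU G t y * (1 - UU G t y))
      = γ - avg (fun y => (UU G t y) ^ 2) := by
    intro t
    have e : (fun y => UU G t y * (1 - UU G t y)) = fun y => UU G t y - (UU G t y) ^ 2 := by
      funext y; ring
    rw [e, avg_sub]
    congr 1
    exact avg_UU G t
  obtain ⟨x1, hx1⟩ : ∃ x, G x = 1 := by
    by_contra hno
    push Not at hno
    have hz : G = fun _ => 0 := by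
      funext x
      rcases hG x with h | h
      · exact h
      · exact absurd h (hno x)
    have : γ = 0 := by rw [hγ, hz, avg_const]
    linarith
  by_cases hcase : γ / 100 ≤ avg (fun y => UU G T y * (1 - UU G T y))
  · exact Or.inl hcase
  right
  push Not at hcase
  have hY0 : γ - avg (fun y => (UU G 0 y) ^ 2) = 0 := by
    rw [UU_zero]
    have e : (fun y => (G y) ^ 2) = G := by
      funext y
      rcases hG y with h | h <;> rw [h] <;> norm_num
    rw [e]
    simp [hγ]
  have hode := ode_bound (Y := fun t => γ - avg (fun y => (UU G t y) ^ 2))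
    (Y' := fun t => (1 / 2) * ∑ i, avg (fun y => (UU G t y - UU G t (flp i y)) ^ 2))
    (T := T) (b := γ / 100) (C := γ * (0.99 * Λ - 0.02)) hT
    (fun t _ => (((hasDerivAt_avg_sq G t).const_sub γ).continuousAt).continuousWithinAt)
    (fun t _ => ((hasDerivAt_avg_sq G t).const_sub γ).congr_deriv (by ring))
    (fun t _ => by
      apply mul_nonneg (by norm_num)
      exact Finset.sum_nonneg (fun i _ => avg_nonneg (fun y => sq_nonneg _)))
    (fun t ht hY => by
      have hv0 := UU_indicator_pos hG hx1 ht.1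
      have hv1 : ∀ y, UU G t y ≤ 1 := fun y => (UU_indicator_bounds hG ht.1 y).2
      have h1 := ent_lower hv0 hv1 hΛ0 hL (avg_UU G t) hY
      exact h1.trans (lsi _ hv0))
    (by
      show γ - avg (fun y => (UU G T y) ^ 2) < γ / 100
      rw [← hYform]
      exact hcase)
  have hode' : (γ - avg (fun y => (UU G 0 y) ^ 2)) + γ * (0.99 * Λ - 0.02) * T
      ≤ γ - avg (fun y => (UU G T y) ^ 2) := hode
  rw [hY0, ← hYform] at hode'
  linarith

/-- Arithmetic for the two small sets. -/
lemma tiny_num {γ L T e l h : ℝ} (hγ0 : 0 ≤ γ) (hT : 2 * e ≤ T) (he0 : 0 < e)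
    (hh : h ≤ e * (l + 1)) (hs : e * (l + 1) ≤ 1 / 20000) (hl : 500 ≤ l)
    (hL : γ / 100 ≤ L ∨ T * (γ * (0.99 * (0.45 * l - Real.log 2) - 0.02)) ≤ L) :
    (4 / 5) * γ * h ≤ L := by
  have hlog2' := Real.log_two_lt_d9
  rcases hL with hL | hL
  · have h1 : h ≤ 1 / 20000 := hh.trans hs
    have h2 : γ * h ≤ γ * (1 / 20000) := mul_le_mul_of_nonneg_left h1 hγ0
    nlinarith
  · set c : ℝ := 0.99 * (0.45 * l - Real.log 2) - 0.02 with hc
    have hc1 : (4 / 5) * (l + 1) ≤ 2 * c := by
      rw [hc]
      norm_num at hlog2' ⊢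
      linarith
    have hc0 : 0 ≤ c := by linarith
    have h1 : 2 * e * (γ * c) ≤ T * (γ * c) :=
      mul_le_mul_of_nonneg_right hT (mul_nonneg hγ0 hc0)
    have h2 : γ * h ≤ γ * (e * (l + 1)) := mul_le_mul_of_nonneg_left hh hγ0
    have h3 : γ * e * ((4 / 5) * (l + 1)) ≤ γ * e * (2 * c) :=
      mul_le_mul_of_nonneg_left hc1 (mul_nonneg hγ0 he0.le)
    nlinarith

/-- The tiny route: the pointwise comparison and the sensitivity of small sets. -/
theorem caseB_tiny {F : (Fin n → Bool) → ℝ} (hF : ∀ x, (F x) ^ 2 = 1) {j : Fin n} {e : ℝ}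
    (he0 : 0 < e) (hl : 500 ≤ Real.log (1 / e)) {T : ℝ} (hT0 : 0 < T)
    (hTe : Real.exp (-T) = 1 - 2 * e)
    (hγ : (1 - (avg (gp F j) - avg (gm F j)) / 2) / 2
      < Real.exp (-(0.45 * Real.log (1 / e)))) :
    Real.binEntropy e ≤ HH F T := by
  obtain ⟨he1, hehl⟩ := eps_facts he0 hl
  set l : ℝ := Real.log (1 / e) with hldef
  set h : ℝ := Real.binEntropy e with hh
  have hh0 : 0 < h := Real.binEntropy_pos he0 (by linarith)
  have hhle : h ≤ e * (l + 1) := binEntropy_le_mul (by linarith)
  have hhs : h ≤ 1 / 1000 := by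
    have := hhle.trans hehl
    linarith
  have hlog2 := Real.log_two_gt_d9
  have hlog2' := Real.log_two_lt_d9
  set p : ℝ := avg (gp F j) with hp
  set q : ℝ := avg (gm F j) with hq
  set Gp : (Fin n → Bool) → ℝ := fun x => 1 / 2 + (-(1 / 2)) * gp F j x with hGpdef
  set Gm : (Fin n → Bool) → ℝ := fun x => 1 / 2 + (1 / 2) * gm F j x with hGmdef
  have hGp : ∀ x, Gp x = 0 ∨ Gp x = 1 := by
    intro x
    rcases eq_or_of_sq (hF (Function.update x j true)) with h1 | h1
    · left
      have e1 : gp F j x = 1 := h1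
      simp only [hGpdef, e1]
      norm_num
    · right
      have e1 : gp F j x = -1 := h1
      simp only [hGpdef, e1]
      norm_num
  have hGm : ∀ x, Gm x = 0 ∨ Gm x = 1 := by
    intro x
    rcases eq_or_of_sq (hF (Function.update x j false)) with h1 | h1
    · right
      have e1 : gm F j x = 1 := h1
      simp only [hGmdef, e1]
      norm_num
    · left
      have e1 : gm F j x = -1 := h1
      simp only [hGmdef, e1]
      norm_num
  have hγp : avg Gp = 1 / 2 - p / 2 := by
    simp only [hGpdef]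
    rw [avg_add, avg_const, avg_mul_left]
    ring
  have hγm : avg Gm = 1 / 2 + q / 2 := by
    simp only [hGmdef]
    rw [avg_add, avg_const, avg_mul_left]
    ring
  have hγp0 : 0 ≤ avg Gp := avg_nonneg (fun x => by rcases hGp x with h1 | h1 <;> rw [h1] <;> norm_num)
  have hγm0 : 0 ≤ avg Gm := avg_nonneg (fun x => by rcases hGm x with h1 | h1 <;> rw [h1] <;> norm_num)
  set g : ℝ := (1 - (p - q) / 2) / 2 with hg
  have hsum : avg Gp + avg Gm = 2 * g := by
    rw [hγp, hγm, hg]; ring
  set Λ : ℝ := 0.45 * l - Real.log 2 with hΛdef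
  have hΛ0 : 0 ≤ Λ := by
    rw [hΛdef]
    norm_num at hlog2' ⊢
    linarith
  have hΛgen : ∀ γ : ℝ, 0 < γ → γ ≤ 2 * g → Λ ≤ Real.log (1 / γ) := by
    intro γ hγ0 hγle
    have h1 : γ ≤ 2 * Real.exp (-(0.45 * l)) := by linarith
    have h2 := Real.log_le_log hγ0 h1
    rw [Real.log_mul (by norm_num) (Real.exp_pos _).ne', Real.log_exp] at h2
    rw [one_div, Real.log_inv, hΛdef]
    linarith
  obtain ⟨hLp0, hLp⟩ := tiny_L hGp hΛ0 (fun hpos => hΛgen _ hpos (by linarith)) hT0
  obtain ⟨hLm0, hLm⟩ := tiny_L hGm hΛ0 (fun hpos => hΛgen _ hpos (by linarith)) hT0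
  have hT2 := T_ge hTe
  have hp1 := tiny_num hγp0 hT2 he0 hhle hehl hl hLp
  have hm1 := tiny_num hγm0 hT2 he0 hhle hehl hl hLm
  -- the pointwise comparison
  have hpt : ∀ y, h * (1 - UU Gp T y - UU Gm T y)
      + (5 / 4) * (UU Gp T y * (1 - UU Gp T y) + UU Gm T y * (1 - UU Gm T y))
      ≤ (Real.binEntropy ((1 + UU (mixP e F j) T y) / 2)
          + Real.binEntropy ((1 + UU (mixM e F j) T y) / 2)) / 2 := by
    intro y
    obtain ⟨hs0, hs1⟩ := UU_indicator_bounds hGp hT0 y
    obtain ⟨ht0, ht1⟩ := UU_indicator_bounds hGm hT0 y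
    have hK := K_bound he0 he1 hhs hs0 hs1 ht0 ht1
    have es : UU Gp T y = 1 / 2 + (-(1 / 2)) * UU (gp F j) T y := UU_const_add _ _ _ _ _
    have et : UU Gm T y = 1 / 2 + (1 / 2) * UU (gm F j) T y := UU_const_add _ _ _ _ _
    have eP : UU (mixP e F j) T y = (1 - e) * UU (gp F j) T y + e * UU (gm F j) T y :=
      UU_mix _ _ _ _ _ _
    have eM : UU (mixM e F j) T y = e * UU (gp F j) T y + (1 - e) * UU (gm F j) T y :=
      UU_mix _ _ _ _ _ _
    have e1 : (1 + UU (mixP e F j) T y) / 2 = 1 - ((1 - e) * UU Gp T y + e * (1 - UU Gm T y)) := by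
      rw [eP, es, et]; ring
    have e2 : (1 + UU (mixM e F j) T y) / 2 = (1 - e) * UU Gm T y + e * (1 - UU Gp T y) := by
      rw [eM, es, et]; ring
    rw [e1, e2, Real.binEntropy_one_sub]
    have hst : 0 ≤ h * (2 * UU Gp T y * UU Gm T y) := by positivity
    have e3 : h * (1 - UU Gp T y - UU Gm T y + 2 * UU Gp T y * UU Gm T y)
        = h * (1 - UU Gp T y - UU Gm T y) + h * (2 * UU Gp T y * UU Gm T y) := by ring
    rw [e3] at hK
    linarith
  have hav := avg_le_avg hpt
  have hright : avg (fun y => (Real.binEntropy ((1 + UU (mixP e F j) T y) / 2)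
          + Real.binEntropy ((1 + UU (mixM e F j) T y) / 2)) / 2) = HH F T := by
    rw [HH_split F j hTe]
    unfold HH
    have e1 : (fun y => (Real.binEntropy ((1 + UU (mixP e F j) T y) / 2)
          + Real.binEntropy ((1 + UU (mixM e F j) T y) / 2)) / 2)
        = fun y => (1 / 2 : ℝ) * (Real.binEntropy ((1 + UU (mixP e F j) T y) / 2)
          + Real.binEntropy ((1 + UU (mixM e F j) T y) / 2)) := by
      funext y; ring
    rw [e1, avg_mul_left, avg_add]
    ring
  rw [hright] at hav
  have hleft : avg (fun y => h * (1 - UU Gp T y - UU Gm T y)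
      + (5 / 4) * (UU Gp T y * (1 - UU Gp T y) + UU Gm T y * (1 - UU Gm T y)))
      = h * (1 - avg Gp - avg Gm)
        + (5 / 4) * (avg (fun y => UU Gp T y * (1 - UU Gp T y))
            + avg (fun y => UU Gm T y * (1 - UU Gm T y))) := by
    rw [avg_add, avg_mul_left, avg_mul_left, avg_sub, avg_sub, avg_const, avg_add]
    have h1 : avg (fun y => UU Gp T y) = avg Gp := avg_UU Gp T
    have h2 : avg (fun y => UU Gm T y) = avg Gm := avg_UU Gm T
    rw [h1, h2]
  rw [hleft] at hav
  nlinarith

/-- A heavy coordinate of positive correlation. -/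
theorem caseB {F : (Fin n → Bool) → ℝ} (hF : ∀ x, (F x) ^ 2 = 1) {j : Fin n} {e : ℝ}
    (he0 : 0 < e) (hl : 500 ≤ Real.log (1 / e)) {T : ℝ} (hT0 : 0 < T)
    (hTe : Real.exp (-T) = 1 - 2 * e)
    (hm2 : (avg F) ^ 2 ≤ 2 * Real.binEntropy e)
    (hpq : 1 ≤ avg (gp F j) - avg (gm F j)) :
    Real.binEntropy e ≤ HH F T := by
  by_cases hγ : Real.exp (-(0.45 * Real.log (1 / e)))
      ≤ (1 - (avg (gp F j) - avg (gm F j)) / 2) / 2
  · exact caseB_moderate hF he0 hl hT0 hTe hm2 hpq hγ
  · push Not at hγ
    exact caseB_tiny hF he0 hl hT0 hTe hγ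

/-- **The exact bound at low noise.**  For a sign function `F` on the cube and a crossover
probability below `exp (-500)`, the conditional entropy of `F` given the output of the channel is
at least the binary entropy of the crossover probability, once the deficit of the entropy of `F`
from `log 2` is taken into account. -/
theorem exact_bound {F : (Fin n → Bool) → ℝ} (hF : ∀ x, (F x) ^ 2 = 1) {e : ℝ}
    (he0 : 0 < e) (hl : 500 ≤ Real.log (1 / e)) {T : ℝ} (hT0 : 0 < T)
    (hTe : Real.exp (-T) = 1 - 2 * e) :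
    Real.binEntropy e - (Real.log 2 - Real.binEntropy ((1 + avg F) / 2)) ≤ HH F T := by
  obtain ⟨he1, hehl⟩ := eps_facts he0 hl
  set h : ℝ := Real.binEntropy e with hh
  have hhle : h ≤ e * (Real.log (1 / e) + 1) := binEntropy_le_mul (by linarith)
  have hhs : h ≤ 1 / 20000 := hhle.trans hehl
  have hF1 := abs_le_one_of_sq hF
  have hHnn : 0 ≤ HH F T :=
    avg_nonneg (fun y => entropy_half_nonneg (abs_UU_le_gen hF1 hT0 y))
  have hmax : Real.binEntropy ((1 + avg F) / 2) ≤ Real.log 2 := Real.binEntropy_le_log_two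
  have hlog2 := Real.log_two_gt_d9
  have hm1 := abs_avg_le_one hF1
  by_cases hm : 2 * h < (avg F) ^ 2
  · -- a strongly biased function
    have hgoal : h ≤ Real.log 2 - Real.binEntropy ((1 + avg F) / 2) := by
      rcases hm1.eq_or_lt with hone | hlt
      · have hm2 : avg F = 1 ∨ avg F = -1 := by
          rcases abs_cases (avg F) with ⟨h1, _⟩ | ⟨h1, _⟩
          · left; linarith
          · right; linarith
        have hz : Real.binEntropy ((1 + avg F) / 2) = 0 := by
          rcases hm2 with h1 | h1 <;> rw [h1] <;> norm_num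
        rw [hz]
        norm_num at hhs hlog2 ⊢
        linarith
      · have := kl_ge hlt
        linarith
    linarith
  · push Not at hm
    have hm3 : (avg F) ^ 2 ≤ 1 / 1000 := by
      norm_num at hhs ⊢
      linarith
    have hn1 : ∃ x, F x < 1 := by
      by_contra hno
      push Not at hno
      have hall : avg F = 1 := by
        have : F = fun _ => 1 := by
          funext x
          exact le_antisymm (abs_le.mp (hF1 x)).2 (hno x)
        rw [this, avg_const]
      rw [hall] at hm3
      norm_num at hm3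
    have hn2 : ∃ x, -1 < F x := by
      by_contra hno
      push Not at hno
      have hall : avg F = -1 := by
        have : F = fun _ => -1 := by
          funext x
          exact le_antisymm (hno x) (abs_le.mp (hF1 x)).1
        rw [this, avg_const]
      rw [hall] at hm3
      norm_num at hm3
    have hgoal : h ≤ HH F T := by
      by_cases hj : ∃ j : Fin n, 1 / 4 ≤ SS {j} F - (avg F) ^ 2
      · obtain ⟨j, hj⟩ := hj
        rw [SS_single] at hj
        have habs : 1 ≤ |avg (gp F j) - avg (gm F j)| := by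
          have h1 : (1 : ℝ) ^ 2 ≤ (avg (gp F j) - avg (gm F j)) ^ 2 := by
            nlinarith
          have := sq_le_sq.mp h1
          simpa using this
        rcases le_abs.mp habs with hpos | hneg
        · exact caseB hF he0 hl hT0 hTe hm hpos
        · -- negate the function
          have hF' : ∀ x, (- F x) ^ 2 = 1 := fun x => by rw [neg_sq]; exact hF x
          have hgp : avg (gp (fun x => - F x) j) = - avg (gp F j) := by
            have : gp (fun x => - F x) j = fun x => (-1) * gp F j x := by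
              funext x
              simp [gp]
            rw [this, avg_mul_left]
            ring
          have hgm : avg (gm (fun x => - F x) j) = - avg (gm F j) := by
            have : gm (fun x => - F x) j = fun x => (-1) * gm F j x := by
              funext x
              simp [gm]
            rw [this, avg_mul_left]
            ring
          have hav : avg (fun x => - F x) = - avg F := by
            have : (fun x => - F x) = fun x => (-1) * F x := by
              funext x
              ring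
            rw [this, avg_mul_left]
            ring
          have := caseB hF' he0 hl hT0 hTe (by rw [hav, neg_sq]; exact hm)
            (j := j) (by rw [hgp, hgm]; linarith)
          rwa [HH_neg] at this
      · push Not at hj
        obtain ⟨I, hI⟩ := fkn hF hm3 hj
        exact caseA hF hI he0 hl hm hT0 hTe hn1 hn2
    linarith

end Vale.Agent.P322
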