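import Vale.Agent.P322.Reals

namespace Vale.Agent.P322

open Real Finset

lemma HH_nonneg {n : ℕ} (f : (Fin n → Bool) → Bool) {t : ℝ} (ht : 0 < t) :
    0 ≤ HH (signOf f) t := by
  unfold HH avg
  apply div_nonneg _ (by positivity)
  apply Finset.sum_nonneg
  intro y _
  have := abs_le.mp (abs_UU_le f ht y)
  exact Real.binEntropy_nonneg (by linarith) (by linarith)

lemma V_le {n : ℕ} (f : (Fin n → Bool) → Bool) {t : ℝ} (ht : 0 < t) :
    avg (fun y => 1 - (UU (signOf f) t y) ^ 2) * Real.log 2 ≤ 2 * HH (signOf f) t := by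
  unfold HH
  rw [← avg_mul_left, ← avg_mul_right]
  exact avg_le_avg (fun y => one_sub_sq_le_entropy (abs_UU_le f ht y))

/-- The entropy of the dictator curve. -/
noncomputable def zeta (s : ℝ) : ℝ := Real.binEntropy ((1 + Real.exp (-s)) / 2)

lemma hasDerivAt_zeta {s : ℝ} (hs : 0 < s) :
    HasDerivAt zeta (Real.exp (-s) * psi (Real.exp (-s))) s := by
  have hρ0 : 0 < Real.exp (-s) := Real.exp_pos _
  have hρ1 : Real.exp (-s) < 1 := by
    rw [Real.exp_lt_one_iff]; linarith
  have habs : |Real.exp (-s)| < 1 := by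
    rw [abs_of_pos hρ0]; exact hρ1
  have h1 : (1 + Real.exp (-s)) / 2 ≠ 0 := by
    have : 0 < (1 + Real.exp (-s)) / 2 := by linarith
    exact this.ne'
  have h2 : (1 + Real.exp (-s)) / 2 ≠ 1 := by
    have : (1 + Real.exp (-s)) / 2 < 1 := by linarith
    exact this.ne
  have h3 := Real.hasDerivAt_binEntropy h1 h2
  have h4 : HasDerivAt (fun r : ℝ => Real.exp (-r)) (-Real.exp (-s)) s := by
    have := (hasDerivAt_neg s).exp
    simpa using this
  have h5 := (h4.const_add 1).div_const 2
  have h6 := h3.comp s h5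
  refine h6.congr_deriv ?_
  rw [log_sub_psi habs]
  ring

lemma zeta_continuous : Continuous zeta := by
  unfold zeta
  exact Real.binEntropy_continuous.comp (by fun_prop)

/-- The strict inequality at a touching time. -/
lemma touch_step {n : ℕ} (f : (Fin n → Bool) → Bool) {ε δ xn η s : ℝ}
    (hε1 : ε ≤ 1 / 64) (hδ0 : 0 ≤ δ) (hδ1 : δ < 1)
    (hδ : ∀ e : ℝ, 0 < e → e ≤ ε →
      Real.log (Real.log (1 / e) + 1) - Real.log (Real.log 2) + 3 * Real.log 2
        ≤ δ * Real.log (1 / e))
    (hxnval : xn = Real.log 2 - Real.binEntropy ((1 + avg (signOf f)) / 2))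
    (hxn0 : 0 ≤ xn) (hη : 0 < η)
    (hmabs : |avg (signOf f)| < 1)
    (hU : ∀ y, |UU (signOf f) s y| < 1) (hs0 : 0 < s)
    (hρT : 1 - 2 * ε < Real.exp (-s))
    (htouch : (1 - δ) * zeta s - xn - η = HH (signOf f) s) :
    (1 - δ) * (Real.exp (-s) * psi (Real.exp (-s))) < energy (UU (signOf f) s) := by
  set F : (Fin n → Bool) → ℝ := signOf f with hF
  set ρ : ℝ := Real.exp (-s) with hρ
  have hρ1 : ρ < 1 := by
    rw [hρ, Real.exp_lt_one_iff]; linarith
  set e : ℝ := (1 - ρ) / 2 with he
  have he0 : 0 < e := by rw [he]; linarith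
  have heε : e ≤ ε := by rw [he]; linarith
  have he1 : e < 1 := by linarith
  have hρe : ρ = 1 - 2 * e := by rw [he]; ring
  have hzs : zeta s = Real.binEntropy e := by
    unfold zeta
    rw [← Real.binEntropy_one_sub e]
    congr 1
    rw [← hρ, he]
    ring
  have hent0 : 0 ≤ Real.binEntropy e := Real.binEntropy_nonneg he0.le he1.le
  have hentub := binEntropy_le_mul he1
  have hHs := HH_nonneg f hs0
  have hδ' : (1 - δ) * Real.binEntropy e ≤ Real.binEntropy e := by
    linarith [mul_nonneg hδ0 hent0]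
  rw [hzs] at htouch
  have hx1 : xn ≤ Real.binEntropy e := by linarith
  have hkl := kl_ge hmabs
  rw [← hxnval] at hkl
  have hlin : 2 * e * (Real.log (1 / e) + 1) = 2 * (e * (Real.log (1 / e) + 1)) := by ring
  have hB : 1 - 2 * e * (Real.log (1 / e) + 1) ≤ 1 - (avg F) ^ 2 := by
    rw [hlin]
    linarith
  have hV0 : 0 < avg (fun y => 1 - (UU F s y) ^ 2) := by
    apply avg_pos
    intro y
    have := abs_lt.mp (hU y)
    nlinarith
  have hV2 : avg (fun y => 1 - (UU F s y) ^ 2) * Real.log 2
      ≤ 2 * e * (Real.log (1 / e) + 1) := by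
    have h2 := V_le f hs0
    rw [hlin]
    linarith
  have htouchineq := touch he0 (by linarith) hδ1 (hδ e he0 heε) hB hV0 hV2
  have hen := energy_ge (UU F s) hU
  rw [avg_UU] at hen
  rw [← hρe] at htouchineq
  linarith

/-- The differential comparison with the dictator curve. -/
theorem entropy_lower {n : ℕ} (f : (Fin n → Bool) → Bool) {ε δ : ℝ} (hε0 : 0 < ε)
    (hε1 : ε ≤ 1 / 64) (hδ0 : 0 ≤ δ) (hδ1 : δ < 1)
    (hδ : ∀ e : ℝ, 0 < e → e ≤ ε →
      Real.log (Real.log (1 / e) + 1) - Real.log (Real.log 2) + 3 * Real.log 2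
        ≤ δ * Real.log (1 / e))
    {T : ℝ} (hT : 0 < T) (hTε : Real.exp (-T) = 1 - 2 * ε) :
    (1 - δ) * Real.binEntropy ε - (Real.log 2 - Real.binEntropy ((1 + avg (signOf f)) / 2))
      ≤ HH (signOf f) T := by
  set F : (Fin n → Bool) → ℝ := signOf f with hF
  set m : ℝ := avg F with hm
  set xn : ℝ := Real.log 2 - Real.binEntropy ((1 + m) / 2) with hxn
  have hxn0 : 0 ≤ xn := by
    rw [hxn]
    have := Real.binEntropy_le_log_two (p := (1 + m) / 2)
    linarith
  have hHT := HH_nonneg f hT
  have hentε : 0 ≤ Real.binEntropy ε :=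
    Real.binEntropy_nonneg hε0.le (by linarith)
  by_cases hcase : (1 - δ) * Real.binEntropy ε ≤ xn
  · linarith
  push Not at hcase
  -- the function is not constant
  have hnc : ∀ b : Bool, ∃ x, f x = b := by
    intro b
    by_contra hno
    push Not at hno
    have hcst : ∀ x, f x = !b := by
      intro x
      have := hno x
      cases hfx : f x <;> cases b <;> simp_all
    have hFc : F = fun _ => sg (!b) := by
      funext x
      rw [hF]
      unfold signOf
      rw [hcst]
    have hmv : m = sg (!b) := by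
      rw [hm, hFc, avg_const]
    have hent0 : Real.binEntropy ((1 + m) / 2) = 0 := by
      rw [hmv]
      cases b <;> simp
    have hxnlog : xn = Real.log 2 := by rw [hxn, hent0]; ring
    have h1 := Real.binEntropy_le_log_two (p := ε)
    have h2 : (1 - δ) * Real.binEntropy ε ≤ Real.binEntropy ε := by
      linarith [mul_nonneg hδ0 hentε]
    linarith
  obtain ⟨x0, h0⟩ := hnc true
  obtain ⟨x1, h1⟩ := hnc false
  have hU : ∀ t : ℝ, 0 < t → ∀ y, |UU F t y| < 1 := fun t ht y => abs_UU_lt f ht h0 h1 y
  have hmabs : |m| < 1 := by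
    have := avg_lt_one (hU T hT)
    rwa [avg_UU] at this
  have hHder : ∀ t : ℝ, 0 < t → HasDerivAt (HH F) (energy (UU F t)) t :=
    fun t ht => hasDerivAt_HH F (hU t ht)
  have hzder : ∀ t : ℝ, 0 < t → ∀ η : ℝ, HasDerivAt (fun s => (1 - δ) * zeta s - xn - η)
      ((1 - δ) * (Real.exp (-t) * psi (Real.exp (-t)))) t := by
    intro t ht η
    have := (((hasDerivAt_zeta ht).const_mul (1 - δ)).sub_const xn).sub_const η
    exact this
  have key : ∀ η : ℝ, 0 < η → (1 - δ) * zeta T - xn ≤ HH F T + η := by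
    intro η hη
    -- choose the starting point
    have hcont : Continuous (fun s => (1 - δ) * zeta s - xn) :=
      (continuous_const.mul zeta_continuous).sub continuous_const
    have hz0 : (1 - δ) * zeta 0 - xn < η := by
      have : zeta 0 = 0 := by
        unfold zeta
        norm_num
      rw [this]
      linarith
    have hev := (hcont.tendsto 0).eventually_lt_const hz0
    obtain ⟨r, hr0, hr⟩ := Metric.eventually_nhds_iff.mp hev
    set a : ℝ := min (r / 2) (T / 2) with ha
    have ha0 : 0 < a := lt_min (by linarith) (by linarith)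
    have haT : a < T := lt_of_le_of_lt (min_le_right _ _) (by linarith)
    have har : a < r := lt_of_le_of_lt (min_le_left _ _) (by linarith)
    have hza : (1 - δ) * zeta a - xn < η := by
      apply hr
      rw [Real.dist_eq, sub_zero, abs_of_pos ha0]
      exact har
    have hHa := HH_nonneg f ha0
    have hfence := image_le_of_deriv_right_lt_deriv_boundary'
      (f := fun s => (1 - δ) * zeta s - xn - η)
      (f' := fun s => (1 - δ) * (Real.exp (-s) * psi (Real.exp (-s))))
      (a := a) (b := T) (B := HH F) (B' := fun s => energy (UU F s))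
      (fun s hs => (hzder s (lt_of_lt_of_le ha0 hs.1) η).continuousAt.continuousWithinAt)
      (fun s hs => (hzder s (lt_of_lt_of_le ha0 hs.1) η).hasDerivWithinAt)
      (by linarith)
      (fun s hs => (hHder s (lt_of_lt_of_le ha0 hs.1)).continuousAt.continuousWithinAt)
      (fun s hs => (hHder s (lt_of_lt_of_le ha0 hs.1)).hasDerivWithinAt)
      (fun s hs htouch => touch_step f hε1 hδ0 hδ1 hδ hxn hxn0 hη hmabs
        (hU s (lt_of_lt_of_le ha0 hs.1)) (lt_of_lt_of_le ha0 hs.1)
        (by
          rw [← hTε]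
          exact Real.exp_lt_exp.mpr (by linarith [hs.2]))
        htouch)
    have := hfence (Set.right_mem_Icc.mpr haT.le)
    linarith
  have hfin : (1 - δ) * zeta T - xn ≤ HH F T := le_of_forall_pos_le_add key
  have hzT : zeta T = Real.binEntropy ε := by
    unfold zeta
    rw [hTε, ← Real.binEntropy_one_sub ε]
    congr 1
    ring
  rw [hzT] at hfin
  exact hfin

end Vale.Agent.P322
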