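import Vale.Agent.P322.Basic

namespace Vale.Agent.P322

open Real Finset

/-- Average over the discrete cube. -/
noncomputable def avg {n : ℕ} (g : (Fin n → Bool) → ℝ) : ℝ := (∑ x, g x) / 2 ^ n

section AvgLemmas

variable {n : ℕ}

lemma avg_add (g h : (Fin n → Bool) → ℝ) : avg (fun x => g x + h x) = avg g + avg h := by
  unfold avg; rw [Finset.sum_add_distrib]; ring

lemma avg_sub (g h : (Fin n → Bool) → ℝ) : avg (fun x => g x - h x) = avg g - avg h := by
  unfold avg; rw [Finset.sum_sub_distrib]; ring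

lemma avg_const (c : ℝ) : avg (fun _ : Fin n → Bool => c) = c := by
  unfold avg
  simp only [Finset.sum_const, Finset.card_univ, Fintype.card_pi, Fintype.card_bool,
    Finset.prod_const, Fintype.card_fin, nsmul_eq_mul]
  push_cast
  field_simp

lemma avg_mul_left (c : ℝ) (g : (Fin n → Bool) → ℝ) : avg (fun x => c * g x) = c * avg g := by
  unfold avg; rw [← Finset.mul_sum]; ring

lemma avg_mul_right (c : ℝ) (g : (Fin n → Bool) → ℝ) : avg (fun x => g x * c) = avg g * c := by
  unfold avg; rw [← Finset.sum_mul]; ring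

lemma avg_le_avg {g h : (Fin n → Bool) → ℝ} (hgh : ∀ x, g x ≤ h x) : avg g ≤ avg h := by
  unfold avg
  apply div_le_div_of_nonneg_right _ (by positivity)
  exact Finset.sum_le_sum (fun x _ => hgh x)

lemma avg_lt_one {g : (Fin n → Bool) → ℝ} (h : ∀ x, |g x| < 1) : |avg g| < 1 := by
  have hpos : (0 : ℝ) < 2 ^ n := by positivity
  have hcard : (∑ _x : Fin n → Bool, (1 : ℝ)) = 2 ^ n := by
    simp
  have hne : (Finset.univ : Finset (Fin n → Bool)).Nonempty := Finset.univ_nonempty
  have h1 : ∑ x, g x < ∑ _x : Fin n → Bool, (1 : ℝ) :=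
    Finset.sum_lt_sum_of_nonempty hne (fun x _ => (abs_lt.mp (h x)).2)
  have h2 : ∑ _x : Fin n → Bool, (-1 : ℝ) < ∑ x, g x :=
    Finset.sum_lt_sum_of_nonempty hne (fun x _ => (abs_lt.mp (h x)).1)
  have hcard' : (∑ _x : Fin n → Bool, (-1 : ℝ)) = - 2 ^ n := by
    simp
  rw [hcard] at h1
  rw [hcard'] at h2
  unfold avg
  rw [abs_lt]
  constructor
  · rw [lt_div_iff₀ hpos]; linarith
  · rw [div_lt_iff₀ hpos]; linarith

lemma avg_pos {g : (Fin n → Bool) → ℝ} (h : ∀ x, 0 < g x) : 0 < avg g := by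
  unfold avg
  apply div_pos _ (by positivity)
  exact Finset.sum_pos (fun x _ => h x) Finset.univ_nonempty

/-- The absolute difference of averages is at most the average of absolute differences. -/
lemma abs_avg_sub_le (a b : (Fin n → Bool) → ℝ) :
    |avg a - avg b| ≤ avg (fun x => |a x - b x|) := by
  rw [← avg_sub]
  unfold avg
  rw [abs_div, abs_of_pos (by positivity : (0 : ℝ) < 2 ^ n)]
  apply div_le_div_of_nonneg_right _ (by positivity)
  exact Finset.abs_sum_le_sum_abs _ _

/-- Averaging on the cube splits along the first coordinate. -/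
lemma avg_cons (g : (Fin (n + 1) → Bool) → ℝ) :
    avg g = (avg (fun y => g (Fin.cons true y)) + avg (fun y => g (Fin.cons false y))) / 2 := by
  unfold avg
  have h : ∑ x, g x = ∑ p : Bool × (Fin n → Bool), g (Fin.cons p.1 p.2) := by
    symm
    exact Fintype.sum_equiv (Fin.consEquiv (fun _ : Fin (n + 1) => Bool)) _ _ (fun p => rfl)
  rw [h, Fintype.sum_prod_type, Fintype.sum_bool]
  rw [pow_succ]
  field_simp

end AvgLemmas

/-- Flip one coordinate. -/
def flp {n : ℕ} (i : Fin n) (x : Fin n → Bool) : Fin n → Bool :=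
  Function.update x i (!x i)

lemma flp_flp {n : ℕ} (i : Fin n) (x : Fin n → Bool) : flp i (flp i x) = x := by
  unfold flp
  simp

lemma flp_zero_cons {n : ℕ} (b : Bool) (y : Fin n → Bool) :
    flp (0 : Fin (n + 1)) (Fin.cons b y : Fin (n + 1) → Bool) = Fin.cons (!b) y := by
  unfold flp
  rw [Fin.update_cons_zero]
  simp

lemma flp_succ_cons {n : ℕ} (i : Fin n) (b : Bool) (y : Fin n → Bool) :
    flp i.succ (Fin.cons b y : Fin (n + 1) → Bool) = Fin.cons b (flp i y) := by
  unfold flp
  rw [Fin.cons_update]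
  simp

/-- The Dirichlet form with the edge cost. -/
noncomputable def energy {n : ℕ} (u : (Fin n → Bool) → ℝ) : ℝ :=
  ∑ i, avg (fun x => cost (u x) (u (flp i x)))

/-- The lower-bound function in the log-gain inequality. -/
noncomputable def W (B V : ℝ) : ℝ := (1 / 2) * B * (Real.log (2 * B / V) - 1)

lemma energy_cons {n : ℕ} (u : (Fin (n + 1) → Bool) → ℝ) :
    energy u = avg (fun y => cost (u (Fin.cons true y)) (u (Fin.cons false y)))
      + (energy (fun y => u (Fin.cons true y)) + energy (fun y => u (Fin.cons false y))) / 2 := by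
  unfold energy
  rw [Fin.sum_univ_succ]
  congr 1
  · rw [avg_cons]
    simp only [flp_zero_cons, Bool.not_true, Bool.not_false]
    have : (fun y : Fin n → Bool => cost (u (Fin.cons false y)) (u (Fin.cons true y)))
        = (fun y => cost (u (Fin.cons true y)) (u (Fin.cons false y))) := by
      funext y; exact cost_comm _ _
    rw [this]; ring
  · rw [← Finset.sum_add_distrib, Finset.sum_div]
    apply Finset.sum_congr rfl
    intro i _
    rw [avg_cons]
    simp only [flp_succ_cons]

/-- Averaged form of the two-point bound. -/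
lemma averaged_cost {n : ℕ} (a b : (Fin n → Bool) → ℝ) (ha : ∀ x, |a x| < 1)
    (hb : ∀ x, |b x| < 1) :
    (|avg a - avg b| / 4) *
        Real.log (1 + |avg a - avg b| / avg (fun x => 1 - ((a x) ^ 2 + (b x) ^ 2) / 2))
      ≤ avg (fun x => cost (a x) (b x)) := by
  set Q : ℝ := |avg a - avg b| with hQ
  set V : ℝ := avg (fun x => 1 - ((a x) ^ 2 + (b x) ^ 2) / 2) with hV
  have hVpos : 0 < V := avg_pos (fun x => nu_pos (ha x) (hb x))
  have hQ0 : 0 ≤ Q := abs_nonneg _
  set η : ℝ := Q / V with hη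
  have hη0 : 0 ≤ η := div_nonneg hQ0 hVpos.le
  have h1η : 0 < 1 + η := by linarith
  set K : ℝ := Real.log (1 + η) + η / (1 + η) with hK
  have hK0 : 0 ≤ K := by
    have h1 : 0 ≤ Real.log (1 + η) := Real.log_nonneg (by linarith)
    have h2 : 0 ≤ η / (1 + η) := by positivity
    linarith
  set T : ℝ := η ^ 2 / (1 + η) with hT
  have hpt : ∀ x, (1 / 4) * (|a x - b x| * K - (1 - ((a x) ^ 2 + (b x) ^ 2) / 2) * T)
      ≤ cost (a x) (b x) := by
    intro x
    have h1 := cost_ge (ha x) (hb x)
    have h2 := tangent_bound (abs_nonneg (a x - b x)) (nu_pos (ha x) (hb x)) hη0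
    have : (|a x - b x| / 4) * Real.log (1 + |a x - b x| / (1 - ((a x) ^ 2 + (b x) ^ 2) / 2))
        = (1 / 4) * (|a x - b x| * Real.log (1 + |a x - b x| / (1 - ((a x) ^ 2 + (b x) ^ 2) / 2))) := by
      ring
    rw [this] at h1
    linarith
  have hav := avg_le_avg hpt
  have hleft : avg (fun x => (1 / 4) * (|a x - b x| * K - (1 - ((a x) ^ 2 + (b x) ^ 2) / 2) * T))
      = (1 / 4) * (avg (fun x => |a x - b x|) * K - V * T) := by
    rw [avg_mul_left, avg_sub, avg_mul_right, avg_mul_right]
  rw [hleft] at hav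
  have hd : Q ≤ avg (fun x => |a x - b x|) := abs_avg_sub_le a b
  have hQη : V * η = Q := by rw [hη]; field_simp
  have hfin : V * T = Q * (η / (1 + η)) := by
    rw [hT, ← hQη]; field_simp
  have h2 : Q * K ≤ avg (fun x => |a x - b x|) * K := mul_le_mul_of_nonneg_right hd hK0
  have h3 : (Q / 4) * Real.log (1 + η) = (1 / 4) * (Q * K - V * T) := by
    rw [hfin, hK]; ring
  rw [h3]
  linarith

/-- The step of the induction: the log-sum inequality plus the tangent inequality. -/
lemma step_W {m0 m1 V0 V1 : ℝ} (hm0 : |m0| < 1) (hm1 : |m1| < 1) (hV0 : 0 < V0) (hV1 : 0 < V1) :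
    W (1 - ((m0 + m1) / 2) ^ 2) ((V0 + V1) / 2)
      ≤ (W (1 - m0 ^ 2) V0 + W (1 - m1 ^ 2) V1) / 2
        + (((m0 - m1) / 2) ^ 2 / 2) * Real.log (2 / ((V0 + V1) / 2)) := by
  have hm0' := abs_lt.mp hm0
  have hm1' := abs_lt.mp hm1
  set B0 : ℝ := 1 - m0 ^ 2 with hB0
  set B1 : ℝ := 1 - m1 ^ 2 with hB1
  have hB0pos : 0 < B0 := by rw [hB0]; nlinarith
  have hB1pos : 0 < B1 := by rw [hB1]; nlinarith
  set V : ℝ := (V0 + V1) / 2 with hV
  have hVpos : 0 < V := by rw [hV]; linarith
  set Bb : ℝ := 1 - ((m0 + m1) / 2) ^ 2 with hBb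
  set q2 : ℝ := ((m0 - m1) / 2) ^ 2 with hq2
  set Bt : ℝ := (B0 + B1) / 2 with hBt
  have hBtpos : 0 < Bt := by rw [hBt]; linarith
  have hBbt : Bb = Bt + q2 := by rw [hBb, hBt, hq2, hB0, hB1]; ring
  have hq20 : 0 ≤ q2 := sq_nonneg _
  have hBbpos : 0 < Bb := by linarith
  have hBb1 : Bb ≤ 1 := by rw [hBb]; nlinarith [sq_nonneg ((m0 + m1) / 2)]
  -- log-sum
  have hlogsum : ∀ Bi Vi : ℝ, 0 < Bi → 0 < Vi →
      Bi * Real.log (2 * Bt / V) + Bi - (Bt / V) * Vi ≤ Bi * Real.log (2 * Bi / Vi) := by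
    intro Bi Vi hBi hVi
    have ht : 0 < (Bi / Vi) / (Bt / V) := by positivity
    have h1 := Real.one_sub_inv_le_log_of_pos ht
    have h2 : Real.log ((Bi / Vi) / (Bt / V))
        = Real.log (2 * Bi / Vi) - Real.log (2 * Bt / V) := by
      rw [← Real.log_div (by positivity) (by positivity)]
      congr 1
      field_simp
    rw [h2] at h1
    have h3 : Bi * (1 - ((Bi / Vi) / (Bt / V))⁻¹) = Bi - (Bt / V) * Vi := by
      field_simp
    have h4 := mul_le_mul_of_nonneg_left h1 hBi.le
    rw [h3] at h4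
    nlinarith
  have h0 := hlogsum B0 V0 hB0pos hV0
  have h1 := hlogsum B1 V1 hB1pos hV1
  have hsum : (Bt / V) * V0 + (Bt / V) * V1 = B0 + B1 := by
    have : (Bt / V) * V0 + (Bt / V) * V1 = (Bt / V) * (2 * V) := by rw [hV]; ring
    rw [this, hBt]
    field_simp
  have hlogsum' : 2 * Bt * Real.log (2 * Bt / V)
      ≤ B0 * Real.log (2 * B0 / V0) + B1 * Real.log (2 * B1 / V1) := by
    have e : 2 * Bt * Real.log (2 * Bt / V)
        = B0 * Real.log (2 * Bt / V) + B1 * Real.log (2 * Bt / V) := by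
      have : 2 * Bt = B0 + B1 := by rw [hBt]; ring
      rw [this]; ring
    linarith
  -- tangent
  have htan : Bt - Bb ≤ Bt * (Real.log (2 * Bt / V) - Real.log (2 * Bb / V)) := by
    have ht : 0 < Bt / Bb := by positivity
    have h1 := Real.one_sub_inv_le_log_of_pos ht
    have h2 : Real.log (Bt / Bb) = Real.log (2 * Bt / V) - Real.log (2 * Bb / V) := by
      rw [← Real.log_div (by positivity) (by positivity)]
      congr 1
      field_simp
    rw [h2] at h1
    have h3 : Bt * (1 - (Bt / Bb)⁻¹) = Bt - Bb := by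
      field_simp
    have h4 := mul_le_mul_of_nonneg_left h1 hBtpos.le
    rw [h3] at h4
    exact h4
  have hmono : Real.log (2 * Bb / V) ≤ Real.log (2 / V) := by
    apply Real.log_le_log (by positivity)
    apply div_le_div_of_nonneg_right _ hVpos.le
    linarith
  have hq2mul := mul_le_mul_of_nonneg_left hmono hq20
  unfold W
  have hBbL : ∀ L : ℝ, Bb * L = Bt * L + q2 * L := fun L => by rw [hBbt]; ring
  have hsplit : Bb * Real.log (2 * Bb / V) - Bb
      ≤ Bt * Real.log (2 * Bt / V) - Bt + q2 * Real.log (2 * Bb / V) := by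
    have h1 := hBbL (Real.log (2 * Bb / V))
    have h2 : Bt * (Real.log (2 * Bt / V) - Real.log (2 * Bb / V))
        = Bt * Real.log (2 * Bt / V) - Bt * Real.log (2 * Bb / V) := by ring
    linarith
  have e : (1 / 2) * Bb * (Real.log (2 * Bb / V) - 1)
      = (1 / 2) * (Bb * Real.log (2 * Bb / V) - Bb) := by ring
  rw [e]
  have e0 : (1 / 2) * B0 * (Real.log (2 * B0 / V0) - 1)
      = (1 / 2) * (B0 * Real.log (2 * B0 / V0) - B0) := by ring
  have e1 : (1 / 2) * B1 * (Real.log (2 * B1 / V1) - 1)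
      = (1 / 2) * (B1 * Real.log (2 * B1 / V1) - B1) := by ring
  rw [e0, e1]
  have hB : B0 + B1 = 2 * Bt := by rw [hBt]; ring
  linarith

/-- **Log-gain inequality.**  For every `u` on the cube with values in `(-1,1)`,
the Dirichlet form with edge cost is at least `W (1 - (E u)^2) (E (1 - u^2))`. -/
theorem energy_ge : ∀ {n : ℕ} (u : (Fin n → Bool) → ℝ), (∀ x, |u x| < 1) →
    W (1 - (avg u) ^ 2) (avg (fun x => 1 - (u x) ^ 2)) ≤ energy u := by
  intro n
  induction n with
  | zero =>
    intro u hu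
    have hu0 := hu (fun i => i.elim0)
    have h1 : ∀ x : Fin 0 → Bool, x = (fun i => i.elim0) := fun x => Subsingleton.elim _ _
    have havg : ∀ g : (Fin 0 → Bool) → ℝ, avg g = g (fun i => i.elim0) := by
      intro g
      have : g = fun _ => g (fun i => i.elim0) := by
        funext x; rw [h1 x]
      rw [this, avg_const]
    rw [havg, havg]
    have henergy : energy u = 0 := by
      unfold energy; simp
    rw [henergy]
    set c : ℝ := u (fun i => i.elim0) with hc
    have hc' := abs_lt.mp hu0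
    have hB : 0 < 1 - c ^ 2 := by nlinarith
    unfold W
    have h2 : 2 * (1 - c ^ 2) / (1 - c ^ 2) = 2 := by field_simp
    rw [h2]
    have hlog2 : Real.log 2 < 1 := by
      have := Real.log_two_lt_d9
      linarith
    have : 0 ≤ (1 - c ^ 2) * (1 - Real.log 2) := mul_nonneg hB.le (by linarith)
    nlinarith
  | succ n ih =>
    intro u hu
    set a : (Fin n → Bool) → ℝ := fun y => u (Fin.cons true y) with ha
    set b : (Fin n → Bool) → ℝ := fun y => u (Fin.cons false y) with hb
    have hau : ∀ y, |a y| < 1 := fun y => hu _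
    have hbu : ∀ y, |b y| < 1 := fun y => hu _
    have ih0 := ih a hau
    have ih1 := ih b hbu
    have hen := energy_cons u
    have hmean : avg u = (avg a + avg b) / 2 := avg_cons u
    have hVa : 0 < avg (fun x => 1 - (a x) ^ 2) := by
      apply avg_pos
      intro x
      have := abs_lt.mp (hau x)
      nlinarith
    have hVb : 0 < avg (fun x => 1 - (b x) ^ 2) := by
      apply avg_pos
      intro x
      have := abs_lt.mp (hbu x)
      nlinarith
    have hV : avg (fun x => 1 - (u x) ^ 2)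
        = (avg (fun x => 1 - (a x) ^ 2) + avg (fun x => 1 - (b x) ^ 2)) / 2 := avg_cons _
    have hVsym : avg (fun x => 1 - ((a x) ^ 2 + (b x) ^ 2) / 2)
        = (avg (fun x => 1 - (a x) ^ 2) + avg (fun x => 1 - (b x) ^ 2)) / 2 := by
      have : (fun x => 1 - ((a x) ^ 2 + (b x) ^ 2) / 2)
          = (fun x => (1 / 2 : ℝ) * ((1 - (a x) ^ 2) + (1 - (b x) ^ 2))) := by
        funext x; ring
      rw [this, avg_mul_left, avg_add]; ring
    have hstep := step_W (avg_lt_one hau) (avg_lt_one hbu) hVa hVb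
    have hC := averaged_cost a b hau hbu
    rw [hVsym] at hC
    set V : ℝ := (avg (fun x => 1 - (a x) ^ 2) + avg (fun x => 1 - (b x) ^ 2)) / 2 with hVdef
    have hVpos : 0 < V := by rw [hVdef]; linarith
    set q : ℝ := |avg a - avg b| / 2 with hq
    have hq0 : 0 ≤ q := by rw [hq]; positivity
    have hq1 : q ≤ 1 := by
      have h1 := abs_lt.mp (avg_lt_one hau)
      have h2 := abs_lt.mp (avg_lt_one hbu)
      have : |avg a - avg b| ≤ 2 := abs_le.mpr ⟨by linarith, by linarith⟩
      rw [hq]; linarith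
    have hbern := log_bernoulli hq0 hq1 hVpos
    have hq2 : ((avg a - avg b) / 2) ^ 2 = q ^ 2 := by
      rw [hq, div_pow, div_pow, sq_abs]
    have hC' : (q ^ 2 / 2) * Real.log (2 / V) ≤ avg (fun x => cost (a x) (b x)) := by
      have e1 : |avg a - avg b| / 4 = q / 2 := by rw [hq]; ring
      have e2 : |avg a - avg b| / V = 2 * q / V := by rw [hq]; ring
      rw [e1, e2] at hC
      have h3 := mul_le_mul_of_nonneg_left hbern (by positivity : 0 ≤ q / 2)
      have e3 : q / 2 * (q * Real.log (2 / V)) = (q ^ 2 / 2) * Real.log (2 / V) := by ring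
      rw [e3] at h3
      linarith
    rw [hV, hmean, hen]
    rw [hq2] at hstep
    linarith

end Vale.Agent.P322
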