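import Vale.Agent.P322.LSI

namespace Vale.Agent.P322

open Real Finset

/-- The basic lower bound for the entropy with parameter shifted by `e`. -/
lemma G_base {e s : ℝ} (he0 : 0 < e) (he : e ≤ 1 / 1000) (hs0 : 0 ≤ s) (hs1 : s ≤ 1) :
    2.7 * (s * (1 - s)) ≤ Real.binEntropy (e + (1 - e) * s) := by
  set x : ℝ := e + (1 - e) * s with hx
  have h1e : 0 < 1 - e := by linarith
  have hx0 : 0 ≤ x := by rw [hx]; positivity
  have hx1 : x ≤ 1 := by rw [hx]; nlinarith
  have hu : |2 * x - 1| ≤ 1 := by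
    rw [abs_le]; constructor <;> linarith
  have h1 := entropy_ge_sq hu
  have e1 : (1 + (2 * x - 1)) / 2 = x := by ring
  rw [e1] at h1
  have e2 : 1 - (2 * x - 1) ^ 2 = 4 * (x * (1 - x)) := by ring
  rw [e2] at h1
  have h1x : 1 - x = (1 - e) * (1 - s) := by rw [hx]; ring
  have hxs : (1 - e) * s ≤ x := by rw [hx]; linarith
  have hprod : (1 - e) ^ 2 * (s * (1 - s)) ≤ x * (1 - x) := by
    rw [h1x]
    have h2 : 0 ≤ (1 - e) * (1 - s) := mul_nonneg h1e.le (by linarith)
    have := mul_le_mul_of_nonneg_right hxs h2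
    nlinarith
  have hss : 0 ≤ s * (1 - s) := mul_nonneg hs0 (by linarith)
  have hlog := Real.log_two_gt_d9
  have hc : 2.7 ≤ 4 * Real.log 2 * (1 - e) ^ 2 := by
    have h3 : (0.998 : ℝ) ≤ (1 - e) ^ 2 := by nlinarith
    nlinarith
  have h4 : 2.7 * (s * (1 - s)) ≤ 4 * Real.log 2 * ((1 - e) ^ 2 * (s * (1 - s))) := by
    nlinarith
  have h5 : 4 * Real.log 2 * ((1 - e) ^ 2 * (s * (1 - s))) ≤ 4 * Real.log 2 * (x * (1 - x)) := by
    apply mul_le_mul_of_nonneg_left hprod
    linarith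
  nlinarith

/-- The concave function `G` dominates a parabola. -/
lemma G_bound {e s : ℝ} (he0 : 0 < e) (he : e ≤ 1 / 1000) (hh : Real.binEntropy e ≤ 1 / 1000)
    (hs0 : 0 ≤ s) (hs1 : s ≤ 1) :
    (5 / 2) * (s * (1 - s)) + (1 - s) * Real.binEntropy e ≤ Real.binEntropy (e + (1 - e) * s) := by
  set h : ℝ := Real.binEntropy e with hdef
  have hh0 : 0 < h := Real.binEntropy_pos he0 (by linarith)
  by_cases hcase : 10 * h ≤ s
  · have h1 := G_base he0 he hs0 hs1
    have h2 : 0 ≤ 1 - s := by linarith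
    have h3 : (1 - s) * h ≤ (1 - s) * (0.1 * s) := by
      apply mul_le_mul_of_nonneg_left _ h2
      linarith
    nlinarith [mul_nonneg hs0 h2]
  · push Not at hcase
    set s0 : ℝ := 10 * h with hs0def
    have hs00 : 0 < s0 := by rw [hs0def]; linarith
    have hs01 : s0 ≤ 0.01 := by rw [hs0def]; norm_num; linarith
    have h1 := G_base he0 he hs00.le (by linarith : s0 ≤ 1)
    set r : ℝ := s / s0 with hr
    have hr0 : 0 ≤ r := div_nonneg hs0 hs00.le
    have hr1 : r ≤ 1 := by rw [hr, div_le_one hs00]; linarith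
    have hrs : r * s0 = s := by rw [hr]; field_simp
    have hc := Real.strictConcave_binEntropy.concaveOn
    have hem : e ∈ Set.Icc (0 : ℝ) 1 := ⟨he0.le, by linarith⟩
    have hxm : e + (1 - e) * s0 ∈ Set.Icc (0 : ℝ) 1 := by
      constructor
      · have : 0 ≤ (1 - e) * s0 := mul_nonneg (by linarith) hs00.le
        linarith
      · nlinarith
    have hcon := hc.2 hem hxm (by linarith : 0 ≤ 1 - r) hr0 (by ring)
    simp only [smul_eq_mul] at hcon
    have ex : (1 - r) * e + r * (e + (1 - e) * s0) = e + (1 - e) * s := by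
      rw [← hrs]; ring
    rw [ex, ← hdef] at hcon
    have h3 : 2.7 * (s0 * (1 - s0)) - (1 - s0) * h ≤ Real.binEntropy (e + (1 - e) * s0) - (1 - s0) * h := by
      linarith
    have h4 : 2.6 * (s0 * (1 - s0)) ≤ 2.7 * (s0 * (1 - s0)) - (1 - s0) * h := by
      have h5 : (1 - s0) * h = (1 - s0) * (s0 / 10) := by
        rw [hs0def]; ring
      rw [h5]
      have h6 : 0 ≤ 1 - s0 := by linarith
      nlinarith [mul_nonneg hs00.le h6]
    have h7 : r * (2.6 * (s0 * (1 - s0))) ≤ r * (Real.binEntropy (e + (1 - e) * s0) - (1 - s0) * h) :=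
      mul_le_mul_of_nonneg_left (by linarith) hr0
    have e8 : r * (2.6 * (s0 * (1 - s0))) = 2.6 * (s * (1 - s0)) := by
      rw [← hrs]; ring
    rw [e8] at h7
    have e9 : r * (Real.binEntropy (e + (1 - e) * s0) - (1 - s0) * h)
        = r * Real.binEntropy (e + (1 - e) * s0) - (r - s) * h := by
      rw [← hrs]; ring
    rw [e9] at h7
    have h10 : (5 / 2) * (s * (1 - s)) ≤ 2.6 * (s * (1 - s0)) := by
      have : s * (1 - s) ≤ s := by nlinarith
      have h11 : 2.6 * (s * (0.99)) ≤ 2.6 * (s * (1 - s0)) := by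
        apply mul_le_mul_of_nonneg_left _ (by norm_num)
        apply mul_le_mul_of_nonneg_left _ hs0
        linarith
      nlinarith
    nlinarith

/-- One half of the pointwise comparison. -/
lemma K_half {e s t : ℝ} (he0 : 0 < e) (he : e ≤ 1 / 1000) (hh : Real.binEntropy e ≤ 1 / 1000)
    (hs0 : 0 ≤ s) (hs1 : s ≤ 1) (ht0 : 0 ≤ t) (ht1 : t ≤ 1) :
    Real.binEntropy e * (1 - s - t + 2 * s * t) + (5 / 2) * (s * (1 - s))
      ≤ Real.binEntropy ((1 - e) * s + e * (1 - t)) := by
  set h : ℝ := Real.binEntropy e with hdef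
  have h1 := G_bound he0 he hh hs0 hs1
  have h2 := G_bound he0 he hh (s := 1 - s) (by linarith) (by linarith)
  have e1 : Real.binEntropy (e + (1 - e) * (1 - s)) = Real.binEntropy ((1 - e) * s) := by
    rw [← Real.binEntropy_one_sub]
    congr 1
    ring
  rw [e1] at h2
  have h1e : 0 < 1 - e := by linarith
  have hc := Real.strictConcave_binEntropy.concaveOn
  have hp0 : e + (1 - e) * s ∈ Set.Icc (0 : ℝ) 1 := by
    constructor
    · have : 0 ≤ (1 - e) * s := mul_nonneg h1e.le hs0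
      linarith
    · nlinarith
  have hp1 : (1 - e) * s ∈ Set.Icc (0 : ℝ) 1 := by
    constructor
    · exact mul_nonneg h1e.le hs0
    · nlinarith
  have hcon := hc.2 hp0 hp1 (by linarith : 0 ≤ 1 - t) ht0 (by ring)
  simp only [smul_eq_mul] at hcon
  have ex : (1 - t) * (e + (1 - e) * s) + t * ((1 - e) * s) = (1 - e) * s + e * (1 - t) := by
    ring
  rw [ex] at hcon
  have h3 := mul_le_mul_of_nonneg_left h1 (by linarith : 0 ≤ 1 - t)
  have h4 := mul_le_mul_of_nonneg_left h2 ht0
  have e2 : (1 - (1 - s)) = s := by ring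
  rw [e2] at h4
  nlinarith

/-- The pointwise comparison for the mixtures of the two noisy indicators. -/
lemma K_bound {e s t : ℝ} (he0 : 0 < e) (he : e ≤ 1 / 1000) (hh : Real.binEntropy e ≤ 1 / 1000)
    (hs0 : 0 ≤ s) (hs1 : s ≤ 1) (ht0 : 0 ≤ t) (ht1 : t ≤ 1) :
    Real.binEntropy e * (1 - s - t + 2 * s * t) + (5 / 4) * (s * (1 - s) + t * (1 - t))
      ≤ (Real.binEntropy ((1 - e) * s + e * (1 - t))
          + Real.binEntropy ((1 - e) * t + e * (1 - s))) / 2 := by
  have h1 := K_half he0 he hh hs0 hs1 ht0 ht1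
  have h2 := K_half he0 he hh ht0 ht1 hs0 hs1
  have e1 : 1 - t - s + 2 * t * s = 1 - s - t + 2 * s * t := by ring
  rw [e1] at h2
  linarith

/-- Numerical facts about very small crossover probabilities. -/
lemma eps_facts {e : ℝ} (he0 : 0 < e) (hl : 500 ≤ Real.log (1 / e)) :
    e ≤ 1 / 1000 ∧ e * (Real.log (1 / e) + 1) ≤ 1 / 20000 := by
  set l : ℝ := Real.log (1 / e) with hldef
  have hexp : Real.exp l = 1 / e := by
    rw [hldef, Real.exp_log (by positivity)]
  have h1 : l ^ 3 / 6 ≤ Real.exp l := by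
    have := Real.pow_div_factorial_le_exp l (by linarith) 3
    simpa [Nat.factorial] using this
  rw [hexp] at h1
  have h2 : e * (l ^ 3 / 6) ≤ 1 := by
    have := mul_le_mul_of_nonneg_left h1 he0.le
    rwa [mul_one_div_cancel he0.ne'] at this
  have hl3 : (500 : ℝ) ^ 2 * l ≤ l ^ 3 := by
    have : (500 : ℝ) ^ 2 ≤ l ^ 2 := by nlinarith
    nlinarith
  constructor
  · have h3 : (500 : ℝ) ^ 3 ≤ l ^ 3 := pow_le_pow_left₀ (by norm_num) hl 3
    have h4 : e * ((500 : ℝ) ^ 3 / 6) ≤ e * (l ^ 3 / 6) := by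
      apply mul_le_mul_of_nonneg_left _ he0.le
      linarith
    norm_num at h4
    linarith
  · have h3 : e * ((500 : ℝ) ^ 2 * l / 6) ≤ e * (l ^ 3 / 6) := by
      apply mul_le_mul_of_nonneg_left _ he0.le
      linarith
    have h4 : e * l ≤ 6 / 500 ^ 2 := by
      norm_num at h3 ⊢
      nlinarith
    have h5 : e * ((500 : ℝ) ^ 3 / 6) ≤ e * (l ^ 3 / 6) := by
      apply mul_le_mul_of_nonneg_left _ he0.le
      have h3 : (500 : ℝ) ^ 3 ≤ l ^ 3 := pow_le_pow_left₀ (by norm_num) hl 3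
      linarith
    norm_num at h4 h5 ⊢
    nlinarith

/-- A crude bound for the logarithm. -/
lemma log_succ_bound {l : ℝ} (hl : 0 ≤ l) : Real.log (l + 1) ≤ (l + 1) / 64 + 3.16 := by
  have h1 : Real.log ((l + 1) / 64) ≤ (l + 1) / 64 - 1 :=
    Real.log_le_sub_one_of_pos (by positivity)
  rw [Real.log_div (by positivity) (by norm_num)] at h1
  have h2 : Real.log 64 ≤ 4.16 := by
    have : (64 : ℝ) = 2 ^ 6 := by norm_num
    rw [this, Real.log_pow]
    have := Real.log_two_lt_d9
    push_cast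
    linarith
  linarith

/-- Logarithm of a constant divided by the entropy. -/
lemma log_div_entropy {c h e : ℝ} (hc : 0 < c) (hh : 0 < h) (he0 : 0 < e)
    (hl : 0 ≤ Real.log (1 / e)) (hhe : h ≤ e * (Real.log (1 / e) + 1)) :
    Real.log c + Real.log (1 / e) - Real.log (Real.log (1 / e) + 1) ≤ Real.log (c / h) := by
  set l : ℝ := Real.log (1 / e) with hldef
  have hl1 : 0 < l + 1 := by linarith
  have h1 : Real.log h ≤ Real.log (e * (l + 1)) := Real.log_le_log hh hhe
  rw [Real.log_mul he0.ne' hl1.ne'] at h1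
  have h2 : l = - Real.log e := by
    rw [hldef, one_div, Real.log_inv]
  rw [Real.log_div hc.ne' hh.ne']
  linarith

end Vale.Agent.P322
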