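import Vale.Agent.P322.Block

namespace Vale.Agent.P322

open Real Finset

/-- Comparison on an interval from derivative bounds. -/
lemma ode_bound {Y Y' : ℝ → ℝ} {T b C : ℝ} (hT : 0 < T) (hc : ContinuousOn Y (Set.Icc 0 T))
    (hd : ∀ t ∈ Set.Ioo 0 T, HasDerivAt Y (Y' t) t) (h0 : ∀ t ∈ Set.Ioo 0 T, 0 ≤ Y' t)
    (hC : ∀ t ∈ Set.Ioo 0 T, Y t ≤ b → C ≤ Y' t) (hlt : Y T < b) : Y 0 + C * T ≤ Y T := by
  have hdiff : DifferentiableOn ℝ Y (interior (Set.Icc 0 T)) := by
    rw [interior_Icc]
    exact fun t ht => (hd t ht).differentiableAt.differentiableWithinAt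
  have hmono : MonotoneOn Y (Set.Icc 0 T) := by
    apply monotoneOn_of_deriv_nonneg (convex_Icc 0 T) hc hdiff
    intro t ht
    rw [interior_Icc] at ht
    rw [(hd t ht).deriv]
    exact h0 t ht
  have hTm : T ∈ Set.Icc 0 T := Set.right_mem_Icc.mpr hT.le
  have h0m : (0 : ℝ) ∈ Set.Icc 0 T := Set.left_mem_Icc.mpr hT.le
  have hbound : ∀ t ∈ interior (Set.Icc 0 T), C ≤ deriv Y t := by
    intro t ht
    rw [interior_Icc] at ht
    rw [(hd t ht).deriv]
    apply hC t ht
    have := hmono (Set.Ioo_subset_Icc_self ht) hTm ht.2.le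
    linarith
  have := Convex.mul_sub_le_image_sub_of_le_deriv (convex_Icc 0 T) hc hdiff hbound 0 h0m T hTm hT.le
  linarith

/-- The first derivative comparison for the two-point logarithmic Sobolev inequality. -/
lemma lsi_d {t : ℝ} (ht : 1 ≤ t) :
    0 ≤ 1 - 1 / t - Real.log 2 - 2 * Real.log t + Real.log (1 + t ^ 2) := by
  set g : ℝ → ℝ := fun x => 1 - 1 / x - Real.log 2 - 2 * Real.log x + Real.log (1 + x ^ 2) with hg
  have hd : ∀ x ∈ Set.Ici (1 : ℝ), HasDerivAt g ((x - 1) ^ 2 / (x ^ 2 * (1 + x ^ 2))) x := by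
    intro x hx
    have hx1 : (1 : ℝ) ≤ x := hx
    have hx0 : x ≠ 0 := by linarith
    have hp : 1 + x ^ 2 ≠ 0 := by positivity
    have a1 : HasDerivAt (fun y : ℝ => 1 / y) (-1 / x ^ 2) x := by
      have := (hasDerivAt_inv hx0)
      simpa [one_div, div_eq_mul_inv] using this
    have a2 : HasDerivAt (fun y : ℝ => Real.log y) (1 / x) x := by
      simpa [one_div] using Real.hasDerivAt_log hx0
    have a3 : HasDerivAt (fun y : ℝ => 1 + y ^ 2) (2 * x) x := by
      have := (hasDerivAt_pow 2 x).const_add 1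
      simpa using this
    have a4 := a3.log hp
    have a5 := ((((hasDerivAt_const x (1 : ℝ)).sub a1).sub_const (Real.log 2)).sub
      (a2.const_mul 2)).add a4
    refine a5.congr_deriv ?_
    field_simp
    ring
  have hmono : MonotoneOn g (Set.Ici 1) := by
    apply monotoneOn_of_deriv_nonneg (convex_Ici 1)
    · exact fun x hx => (hd x hx).continuousAt.continuousWithinAt
    · intro x hx
      rw [interior_Ici] at hx
      exact (hd x (Set.mem_Ici.mpr (le_of_lt hx))).differentiableAt.differentiableWithinAt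
    · intro x hx
      rw [interior_Ici] at hx
      rw [(hd x (Set.mem_Ici.mpr (le_of_lt hx))).deriv]
      positivity
  have h := hmono (Set.mem_Ici.mpr le_rfl) (Set.mem_Ici.mpr ht) ht
  have h1 : g 1 = 0 := by
    simp only [hg]
    norm_num
  rw [h1] at h
  exact h

/-- The one-variable form of the two-point logarithmic Sobolev inequality. -/
lemma lsi_E {t : ℝ} (ht : 1 ≤ t) :
    t ^ 2 * Real.log t - ((1 + t ^ 2) / 2) * Real.log ((1 + t ^ 2) / 2) ≤ (1 / 2) * (t - 1) ^ 2 := by
  set g : ℝ → ℝ := fun x => (1 / 2) * (x - 1) ^ 2 - x ^ 2 * Real.log x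
    + ((1 + x ^ 2) / 2) * Real.log ((1 + x ^ 2) / 2) with hg
  have hd : ∀ x ∈ Set.Ici (1 : ℝ), HasDerivAt g
      (x * (1 - 1 / x - Real.log 2 - 2 * Real.log x + Real.log (1 + x ^ 2))) x := by
    intro x hx
    have hx1 : (1 : ℝ) ≤ x := hx
    have hx0 : x ≠ 0 := by linarith
    have hp : (1 + x ^ 2) / 2 ≠ 0 := by positivity
    have hp2 : 1 + x ^ 2 ≠ 0 := by positivity
    have a1 : HasDerivAt (fun y : ℝ => (1 / 2) * (y - 1) ^ 2) (x - 1) x := by
      have := (((hasDerivAt_id x).sub_const 1).pow 2).const_mul (1 / 2 : ℝ)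
      refine this.congr_deriv ?_
      simp
    have a2 : HasDerivAt (fun y : ℝ => y ^ 2) (2 * x) x := by
      simpa using hasDerivAt_pow 2 x
    have a3 : HasDerivAt (fun y : ℝ => Real.log y) (1 / x) x := by
      simpa [one_div] using Real.hasDerivAt_log hx0
    have a4 : HasDerivAt (fun y : ℝ => (1 + y ^ 2) / 2) x x := by
      have := (a2.const_add 1).div_const 2
      refine this.congr_deriv ?_
      ring
    have a5 := a4.log hp
    have a6 := a4.mul a5
    have a7 := (a1.sub (a2.mul a3)).add a6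
    refine a7.congr_deriv ?_
    have e : Real.log (1 + x ^ 2) = Real.log ((1 + x ^ 2) / 2) + Real.log 2 := by
      rw [Real.log_div hp2 (by norm_num)]; ring
    rw [e]
    field_simp
    ring
  have hmono : MonotoneOn g (Set.Ici 1) := by
    apply monotoneOn_of_deriv_nonneg (convex_Ici 1)
    · exact fun x hx => (hd x hx).continuousAt.continuousWithinAt
    · intro x hx
      rw [interior_Ici] at hx
      exact (hd x (Set.mem_Ici.mpr (le_of_lt hx))).differentiableAt.differentiableWithinAt
    · intro x hx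
      rw [interior_Ici] at hx
      have hx1 : 1 ≤ x := le_of_lt hx
      rw [(hd x (Set.mem_Ici.mpr hx1)).deriv]
      exact mul_nonneg (by linarith) (lsi_d hx1)
  have h := hmono (Set.mem_Ici.mpr le_rfl) (Set.mem_Ici.mpr ht) ht
  have h1 : g 1 = 0 := by
    simp only [hg]
    norm_num
  rw [h1] at h
  simp only [hg] at h
  linarith

/-- The two-point logarithmic Sobolev inequality, ordered form. -/
lemma two_point_lsi_aux {a b : ℝ} (hb : 0 < b) (hab : b ≤ a) :
    (a ^ 2 * Real.log (a ^ 2) + b ^ 2 * Real.log (b ^ 2)) / 2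
      - ((a ^ 2 + b ^ 2) / 2) * Real.log ((a ^ 2 + b ^ 2) / 2) ≤ (1 / 2) * (a - b) ^ 2 := by
  set t : ℝ := a / b with ht
  have ht1 : 1 ≤ t := by rw [ht, le_div_iff₀ hb]; linarith
  have ht0 : 0 < t := by linarith
  have hab' : a = t * b := by rw [ht]; field_simp
  have h := lsi_E ht1
  have hb2 : 0 < b ^ 2 := by positivity
  have h1 := mul_le_mul_of_nonneg_left h hb2.le
  have e1 : Real.log (a ^ 2) = 2 * Real.log t + Real.log (b ^ 2) := by
    rw [hab', mul_pow, Real.log_mul (by positivity) (by positivity), Real.log_pow]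
    push_cast
    ring
  have e2 : (a ^ 2 + b ^ 2) / 2 = b ^ 2 * ((1 + t ^ 2) / 2) := by
    rw [hab']; ring
  have e3 : Real.log ((a ^ 2 + b ^ 2) / 2) = Real.log (b ^ 2) + Real.log ((1 + t ^ 2) / 2) := by
    rw [e2, Real.log_mul (by positivity) (by positivity)]
  rw [e1, e3, e2, hab']
  have e4 : (t * b - b) ^ 2 = b ^ 2 * (t - 1) ^ 2 := by ring
  rw [e4]
  have e5 : ((t * b) ^ 2 * (2 * Real.log t + Real.log (b ^ 2)) + b ^ 2 * Real.log (b ^ 2)) / 2
      - b ^ 2 * ((1 + t ^ 2) / 2) * (Real.log (b ^ 2) + Real.log ((1 + t ^ 2) / 2))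
      = b ^ 2 * (t ^ 2 * Real.log t - ((1 + t ^ 2) / 2) * Real.log ((1 + t ^ 2) / 2)) := by
    ring
  rw [e5]
  nlinarith

/-- The two-point logarithmic Sobolev inequality. -/
lemma two_point_lsi {a b : ℝ} (ha : 0 < a) (hb : 0 < b) :
    (a ^ 2 * Real.log (a ^ 2) + b ^ 2 * Real.log (b ^ 2)) / 2
      - ((a ^ 2 + b ^ 2) / 2) * Real.log ((a ^ 2 + b ^ 2) / 2) ≤ (1 / 2) * (a - b) ^ 2 := by
  rcases le_total b a with h | h
  · exact two_point_lsi_aux hb h
  · have := two_point_lsi_aux ha h
    have e1 : b ^ 2 + a ^ 2 = a ^ 2 + b ^ 2 := by ring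
    have e2 : (b - a) ^ 2 = (a - b) ^ 2 := by ring
    rw [e1, e2] at this
    linarith

variable {n : ℕ}

/-- The entropy functional of the square of a function. -/
noncomputable def ent (v : (Fin n → Bool) → ℝ) : ℝ :=
  avg (fun x => (v x) ^ 2 * Real.log ((v x) ^ 2))
    - avg (fun x => (v x) ^ 2) * Real.log (avg (fun x => (v x) ^ 2))

/-- **Gross' logarithmic Sobolev inequality** on the discrete cube. -/
theorem lsi : ∀ {n : ℕ} (v : (Fin n → Bool) → ℝ), (∀ x, 0 < v x) →
    ent v ≤ (1 / 2) * ∑ i, avg (fun x => (v x - v (flp i x)) ^ 2) := by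
  intro n
  induction n with
  | zero =>
    intro v _
    have h1 : ∀ x : Fin 0 → Bool, x = (fun i => i.elim0) := fun x => Subsingleton.elim _ _
    have havg : ∀ g : (Fin 0 → Bool) → ℝ, avg g = g (fun i => i.elim0) := by
      intro g
      have : g = fun _ => g (fun i => i.elim0) := by
        funext x; rw [h1 x]
      rw [this, avg_const]
    unfold ent
    rw [havg, havg]
    simp
  | succ n ih =>
    intro v hv
    set a : (Fin n → Bool) → ℝ := fun y => v (Fin.cons true y) with ha
    set b : (Fin n → Bool) → ℝ := fun y => v (Fin.cons false y) with hb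
    have ha0 : ∀ y, 0 < a y := fun y => hv _
    have hb0 : ∀ y, 0 < b y := fun y => hv _
    have iha := ih a ha0
    have ihb := ih b hb0
    set α : ℝ := avg (fun y => (a y) ^ 2) with hα
    set β : ℝ := avg (fun y => (b y) ^ 2) with hβ
    have hα0 : 0 < α := avg_pos (fun y => by have := ha0 y; positivity)
    have hβ0 : 0 < β := avg_pos (fun y => by have := hb0 y; positivity)
    set A : ℝ := Real.sqrt α with hA
    set B : ℝ := Real.sqrt β with hB
    have hA0 : 0 < A := Real.sqrt_pos.mpr hα0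
    have hB0 : 0 < B := Real.sqrt_pos.mpr hβ0
    have hA2 : A ^ 2 = α := Real.sq_sqrt hα0.le
    have hB2 : B ^ 2 = β := Real.sq_sqrt hβ0.le
    have htwo := two_point_lsi hA0 hB0
    rw [hA2, hB2] at htwo
    -- Cauchy-Schwarz
    have hab : avg (fun y => a y * b y) ≤ A * B := by
      have h1 : 0 ≤ avg (fun y => (B * a y - A * b y) ^ 2) :=
        avg_nonneg (fun y => sq_nonneg _)
      have e : (fun y => (B * a y - A * b y) ^ 2)
          = fun y => B ^ 2 * (a y) ^ 2 + A ^ 2 * (b y) ^ 2 - (2 * A * B) * (a y * b y) := by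
        funext y; ring
      rw [e, avg_sub, avg_add, avg_mul_left, avg_mul_left, avg_mul_left, ← hα, ← hβ,
        ← hA2, ← hB2] at h1
      have h2 : 0 < A * B := mul_pos hA0 hB0
      have h3 : 0 ≤ (A * B) * (A * B - avg (fun y => a y * b y)) := by nlinarith
      have h4 := nonneg_of_mul_nonneg_right h3 h2
      linarith
    have hdiff : avg (fun y => (a y - b y) ^ 2) = α + β - 2 * avg (fun y => a y * b y) := by
      have e : (fun y => (a y - b y) ^ 2)
          = fun y => (a y) ^ 2 + (b y) ^ 2 - 2 * (a y * b y) := by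
        funext y; ring
      rw [e, avg_sub, avg_add, avg_mul_left]
    have hmink : (A - B) ^ 2 ≤ avg (fun y => (a y - b y) ^ 2) := by
      rw [hdiff]
      nlinarith
    -- the entropy chain rule
    have hent : ent v = (ent a + ent b) / 2
        + ((α * Real.log α + β * Real.log β) / 2
            - ((α + β) / 2) * Real.log ((α + β) / 2)) := by
      unfold ent
      have h1 := avg_cons (fun x => (v x) ^ 2 * Real.log ((v x) ^ 2))
      have h2 : avg (fun x => (v x) ^ 2) = (α + β) / 2 := avg_cons (fun x => (v x) ^ 2)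
      rw [h1, h2]
      ring
    -- the energy splitting
    have hen : ∑ i, avg (fun x => (v x - v (flp i x)) ^ 2)
        = avg (fun y => (a y - b y) ^ 2)
          + (∑ i, avg (fun y => (a y - a (flp i y)) ^ 2)
              + ∑ i, avg (fun y => (b y - b (flp i y)) ^ 2)) / 2 := by
      rw [Fin.sum_univ_succ]
      congr 1
      · rw [avg_cons]
        simp only [flp_zero_cons, Bool.not_true, Bool.not_false]
        have e : (fun y => (v (Fin.cons false y) - v (Fin.cons true y)) ^ 2)
            = fun y => (a y - b y) ^ 2 := by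
          funext y; simp only [ha, hb]; ring
        rw [e]
        ring
      · rw [← Finset.sum_add_distrib, Finset.sum_div]
        apply Finset.sum_congr rfl
        intro i _
        rw [avg_cons]
        simp only [flp_succ_cons]
        rfl
    rw [hent, hen]
    linarith

end Vale.Agent.P322
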