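import Vale.Agent.P322.Uniform

namespace Vale.Agent.P322

open Real Finset

variable {n : ℕ}

/-- Take the coordinates in `I` from `x` and all the others from `w`. -/
def mrg (I : Finset (Fin n)) (x w : Fin n → Bool) : Fin n → Bool :=
  fun i => if i ∈ I then x i else w i

/-- Conditional expectation of `F` given the coordinates in `I`. -/
noncomputable def Av (I : Finset (Fin n)) (F : (Fin n → Bool) → ℝ) (x : Fin n → Bool) : ℝ :=
  avg (fun w => F (mrg I x w))

/-- Iterated averages are normalised sums over pairs. -/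
lemma avg_avg (H : (Fin n → Bool) → (Fin n → Bool) → ℝ) :
    avg (fun x => avg (fun w => H x w))
      = (∑ p : (Fin n → Bool) × (Fin n → Bool), H p.1 p.2) / 2 ^ n / 2 ^ n := by
  unfold avg
  simp only [Fintype.sum_prod_type, Finset.sum_div]

/-- Triply iterated averages are normalised sums over triples. -/
lemma avg_avg_avg (H : (Fin n → Bool) → (Fin n → Bool) → (Fin n → Bool) → ℝ) :
    avg (fun x => avg (fun w => avg (fun v => H x w v)))
      = (∑ p : (Fin n → Bool) × (Fin n → Bool) × (Fin n → Bool), H p.1 p.2.1 p.2.2)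
          / 2 ^ n / 2 ^ n / 2 ^ n := by
  unfold avg
  rw [Fintype.sum_prod_type]
  simp only [Fintype.sum_prod_type, Finset.sum_div]

/-- Fubini for the merge map. -/
lemma avg_Av (I : Finset (Fin n)) (G : (Fin n → Bool) → ℝ) : avg (Av I G) = avg G := by
  have h1 : avg (Av I G) = avg (fun x => avg (fun w => G (mrg I x w))) := rfl
  rw [h1, avg_avg]
  have hinv : Function.Involutive
      (fun p : (Fin n → Bool) × (Fin n → Bool) => (mrg I p.1 p.2, mrg I p.2 p.1)) := by
    intro p
    refine Prod.ext ?_ ?_ <;> funext i <;> by_cases hi : i ∈ I <;> simp [mrg, hi]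
  have h2 := Equiv.sum_comp hinv.toPerm (fun p : (Fin n → Bool) × (Fin n → Bool) => G p.1)
  have h3 : ∑ p : (Fin n → Bool) × (Fin n → Bool), G (mrg I p.1 p.2)
      = ∑ p : (Fin n → Bool) × (Fin n → Bool), G p.1 := h2
  rw [h3]
  have h4 : avg G = avg (fun x => avg (fun _w : Fin n → Bool => G x)) := by
    simp only [avg_const]
  rw [h4, avg_avg]

lemma Av_univ (F : (Fin n → Bool) → ℝ) (x : Fin n → Bool) : Av Finset.univ F x = F x := by
  have : ∀ w, mrg Finset.univ x w = x := fun _ => by
    funext i; simp [mrg]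
  unfold Av
  simp only [this, avg_const]

lemma Av_empty (F : (Fin n → Bool) → ℝ) (x : Fin n → Bool) : Av ∅ F x = avg F := by
  have : ∀ w, mrg ∅ x w = w := fun w => by
    funext i; simp [mrg]
  unfold Av
  simp only [this]

/-- Two conditional expectations are independent given the common coordinates. -/
lemma pair_indep {K L : Finset (Fin n)} (hKL : ∀ i, i ∈ K ∨ i ∈ L)
    (F G : (Fin n → Bool) → ℝ) :
    avg (fun x => Av K F x * Av L G x) = avg (fun x => Av (K ∩ L) F x * Av (K ∩ L) G x) := by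
  have hprod : ∀ (J J' : Finset (Fin n)) (x : Fin n → Bool),
      Av J F x * Av J' G x = avg (fun w => avg (fun v => F (mrg J x w) * G (mrg J' x v))) := by
    intro J J' x
    unfold Av
    simp only [avg_mul_left, avg_mul_right]
  simp only [hprod]
  rw [avg_avg_avg, avg_avg_avg]
  congr 3
  set Θ : (Fin n → Bool) × (Fin n → Bool) × (Fin n → Bool)
      → (Fin n → Bool) × (Fin n → Bool) × (Fin n → Bool) :=
    fun p => (fun i => if i ∈ K then (if i ∈ L then p.1 i else p.2.1 i) else p.2.2 i,
      fun i => if i ∈ K ∧ i ∉ L then p.1 i else p.2.1 i,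
      fun i => if i ∉ K then p.1 i else p.2.2 i) with hΘ
  have hinv : Function.Involutive Θ := by
    intro p
    refine Prod.ext ?_ (Prod.ext ?_ ?_) <;> funext i <;>
      by_cases hi : i ∈ K <;> by_cases hj : i ∈ L <;> simp [hΘ, hi, hj]
  have h2 := Equiv.sum_comp hinv.toPerm
    (fun p : (Fin n → Bool) × (Fin n → Bool) × (Fin n → Bool) =>
      F (mrg (K ∩ L) p.1 p.2.1) * G (mrg (K ∩ L) p.1 p.2.2))
  rw [← h2]
  apply Finset.sum_congr rfl
  intro p _
  have e1 : mrg (K ∩ L) (Θ p).1 (Θ p).2.1 = mrg K p.1 p.2.1 := by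
    funext i
    by_cases hi : i ∈ K <;> by_cases hj : i ∈ L <;> simp [hΘ, mrg, hi, hj]
  have e2 : mrg (K ∩ L) (Θ p).1 (Θ p).2.2 = mrg L p.1 p.2.2 := by
    funext i
    have := hKL i
    by_cases hi : i ∈ K <;> by_cases hj : i ∈ L <;> simp_all [mrg]
  change F (mrg K p.1 p.2.1) * G (mrg L p.1 p.2.2)
    = F (mrg (K ∩ L) (Θ p).1 (Θ p).2.1) * G (mrg (K ∩ L) (Θ p).1 (Θ p).2.2)
  rw [e1, e2]

/-- Correlation with a conditional expectation. -/
lemma avg_mul_Av (I : Finset (Fin n)) (F G : (Fin n → Bool) → ℝ) :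
    avg (fun x => F x * Av I G x) = avg (fun x => Av I F x * Av I G x) := by
  have h := pair_indep (K := Finset.univ) (L := I) (fun i => Or.inl (Finset.mem_univ i)) F G
  simp only [Finset.univ_inter, Av_univ] at h
  exact h

lemma mem_or_compl (I : Finset (Fin n)) (i : Fin n) : i ∈ I ∨ i ∈ Iᶜ := by
  by_cases h : i ∈ I
  · exact Or.inl h
  · exact Or.inr (Finset.mem_compl.mpr h)

/-- Independence of conditional expectations on complementary sets of coordinates. -/
lemma avg_Av_compl (I : Finset (Fin n)) (F G : (Fin n → Bool) → ℝ) :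
    avg (fun x => Av I F x * Av Iᶜ G x) = avg F * avg G := by
  have h := pair_indep (mem_or_compl I) F G
  rw [Finset.inter_compl] at h
  simp only [Av_empty] at h
  rw [h, avg_const]

lemma mrg_mrg (I : Finset (Fin n)) (x w v : Fin n → Bool) :
    mrg I (mrg I x w) v = mrg I x v := by
  funext i
  by_cases hi : i ∈ I <;> simp [mrg, hi]

lemma Av_mrg (I : Finset (Fin n)) (F : (Fin n → Bool) → ℝ) (x w : Fin n → Bool) :
    Av I F (mrg I x w) = Av I F x := by
  unfold Av
  simp only [mrg_mrg]

/-- A function of a conditional expectation is its own conditional expectation. -/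
lemma Av_comp (I : Finset (Fin n)) (F : (Fin n → Bool) → ℝ) (u : ℝ → ℝ) (x : Fin n → Bool) :
    Av I (fun y => u (Av I F y)) x = u (Av I F x) := by
  have h : (fun w => u (Av I F (mrg I x w))) = fun _ => u (Av I F x) := by
    funext w; rw [Av_mrg]
  show avg (fun w => u (Av I F (mrg I x w))) = _
  rw [h, avg_const]

/-- Independence for functions of the two conditional expectations. -/
lemma avg_indep (I : Finset (Fin n)) (F : (Fin n → Bool) → ℝ) (u v : ℝ → ℝ) :
    avg (fun x => u (Av I F x) * v (Av Iᶜ F x))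
      = avg (fun x => u (Av I F x)) * avg (fun x => v (Av Iᶜ F x)) := by
  have h := avg_Av_compl I (fun y => u (Av I F y)) (fun y => v (Av Iᶜ F y))
  simp only [Av_comp] at h
  exact h

/-- The quadratic mass of the conditional expectation. -/
noncomputable def SS (I : Finset (Fin n)) (F : (Fin n → Bool) → ℝ) : ℝ :=
  avg (fun x => (Av I F x) ^ 2)

lemma avg_mul_Av_self (I : Finset (Fin n)) (F : (Fin n → Bool) → ℝ) :
    avg (fun x => F x * Av I F x) = SS I F := by
  rw [avg_mul_Av]
  unfold SS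
  congr 1
  funext x
  ring

lemma SS_empty (F : (Fin n → Bool) → ℝ) : SS ∅ F = (avg F) ^ 2 := by
  unfold SS
  simp only [Av_empty, avg_const]

lemma SS_univ (F : (Fin n → Bool) → ℝ) : SS Finset.univ F = avg (fun x => (F x) ^ 2) := by
  unfold SS
  simp only [Av_univ]

lemma abs_avg_le_one {g : (Fin n → Bool) → ℝ} (h : ∀ x, |g x| ≤ 1) : |avg g| ≤ 1 := by
  rw [abs_le]
  constructor
  · have := avg_le_avg (g := fun _ => (-1 : ℝ)) (h := g) (fun x => (abs_le.mp (h x)).1)
    rwa [avg_const] at this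
  · have := avg_le_avg (g := g) (h := fun _ => (1 : ℝ)) (fun x => (abs_le.mp (h x)).2)
    rwa [avg_const] at this

lemma abs_Av_le_one {F : (Fin n → Bool) → ℝ} (h : ∀ x, |F x| ≤ 1) (I : Finset (Fin n))
    (x : Fin n → Bool) : |Av I F x| ≤ 1 :=
  abs_avg_le_one (fun w => h _)

/-- The variance of a conditional expectation. -/
lemma avg_sq_sub_mean (I : Finset (Fin n)) (F : (Fin n → Bool) → ℝ) :
    avg (fun x => (Av I F x - avg F) ^ 2) = SS I F - (avg F) ^ 2 := by
  have e : (fun x => (Av I F x - avg F) ^ 2)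
      = fun x => (Av I F x) ^ 2 - (2 * avg F) * Av I F x + (avg F) ^ 2 := by
    funext x; ring
  rw [e, avg_add, avg_sub, avg_mul_left, avg_const]
  change SS I F - 2 * avg F * avg (Av I F) + (avg F) ^ 2 = _
  rw [avg_Av]
  ring

lemma SS_ge (I : Finset (Fin n)) (F : (Fin n → Bool) → ℝ) : (avg F) ^ 2 ≤ SS I F := by
  have h1 := avg_sq_sub_mean I F
  have h2 : 0 ≤ avg (fun x => (Av I F x - avg F) ^ 2) := by
    have := avg_le_avg (g := fun _ => (0 : ℝ)) (h := fun x => (Av I F x - avg F) ^ 2)
      (fun x => sq_nonneg _)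
    rwa [avg_const] at this
  linarith

/-- **The mixed lemma**: a Boolean function cannot be close to a sum of two non-trivial functions
of independent blocks of coordinates. -/
theorem mixed {F : (Fin n → Bool) → ℝ} (hF : ∀ x, (F x) ^ 2 = 1) (hm : |avg F| ≤ 0.16)
    (I : Finset (Fin n)) :
    4 * (SS I F - (avg F) ^ 2) * (SS Iᶜ F - (avg F) ^ 2)
      ≤ 10 * (1 + (avg F) ^ 2 - SS I F - SS Iᶜ F) := by
  set m : ℝ := avg F with hmdef
  have hF1 : ∀ x, |F x| ≤ 1 := fun x => by
    rw [← sq_le_one_iff_abs_le_one]; exact (hF x).le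
  set a : (Fin n → Bool) → ℝ := Av I F with ha
  set b : (Fin n → Bool) → ℝ := Av Iᶜ F with hb
  have ha1 : ∀ x, |a x| ≤ 1 := fun x => abs_Av_le_one hF1 I x
  have hb1 : ∀ x, |b x| ≤ 1 := fun x => abs_Av_le_one hF1 Iᶜ x
  set S : ℝ := SS I F with hS
  set S' : ℝ := SS Iᶜ F with hS'
  have havga : avg a = m := avg_Av I F
  have havgb : avg b = m := avg_Av Iᶜ F
  have hab : avg (fun x => a x * b x) = m * m := avg_Av_compl I F F
  have hFa : avg (fun x => F x * a x) = S := avg_mul_Av_self I F
  have hFb : avg (fun x => F x * b x) = S' := avg_mul_Av_self Iᶜ F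
  have haa : avg (fun x => (a x) ^ 2) = S := rfl
  have hbb : avg (fun x => (b x) ^ 2) = S' := rfl
  have hFF : avg (fun x => (F x) ^ 2) = 1 := by
    simp only [hF, avg_const]
  -- the residual
  set R : (Fin n → Bool) → ℝ := fun x => F x - a x - b x + m with hR
  have hRavg : avg (fun x => (R x) ^ 2) = 1 + m ^ 2 - S - S' := by
    have e : (fun x => (R x) ^ 2)
        = fun x => (F x) ^ 2 + (a x) ^ 2 + (b x) ^ 2 + m ^ 2 - 2 * (F x * a x) - 2 * (F x * b x)
            + (2 * m) * F x + 2 * (a x * b x) - (2 * m) * a x - (2 * m) * b x := by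
      funext x; simp only [hR]; ring
    rw [e]
    simp only [avg_add, avg_sub, avg_mul_left, avg_const]
    rw [hFF, haa, hbb, hFa, hFb, hab, havga, havgb]
    change 1 + S + S' + m ^ 2 - 2 * S - 2 * S' + 2 * m * m + 2 * (m * m) - 2 * m * m - 2 * m * m
      = _
    ring
  -- the polynomial
  set P : (Fin n → Bool) → ℝ := fun x => (a x + b x - m) ^ 2 - 1 with hP
  have hPR : ∀ x, (P x) ^ 2 ≤ 10 * (R x) ^ 2 := by
    intro x
    have h1 : P x = R x * (R x - 2 * F x) := by
      have := hF x
      simp only [hP, hR]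
      nlinarith
    have h2 : (R x - 2 * F x) ^ 2 ≤ 10 := by
      have hFx := abs_le.mp (hF1 x)
      have hax := abs_le.mp (ha1 x)
      have hbx := abs_le.mp (hb1 x)
      have hmx := abs_le.mp hm
      have e : R x - 2 * F x = -(F x + a x + b x - m) := by simp only [hR]; ring
      have h3 : |R x - 2 * F x| ≤ 3.16 := by
        rw [e, abs_neg, abs_le]
        constructor <;> linarith
      have h4 := sq_le_sq' (abs_le.mp h3).1 (abs_le.mp h3).2
      norm_num at h4 ⊢
      linarith
    rw [h1, mul_pow]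
    nlinarith [sq_nonneg (R x)]
  have hPavg : avg (fun x => (P x) ^ 2) ≤ 10 * (1 + m ^ 2 - S - S') := by
    have := avg_le_avg hPR
    rwa [avg_mul_left, hRavg] at this
  -- the lower bound
  set A : ℝ → ℝ := fun y => y - m with hA
  set σ : ℝ := S - m ^ 2 with hσ
  set σ' : ℝ := S' - m ^ 2 with hσ'
  have hAa : avg (fun x => A (a x)) = 0 := by
    simp only [hA]
    rw [avg_sub, havga, avg_const]; ring
  have hAb : avg (fun x => A (b x)) = 0 := by
    simp only [hA]
    rw [avg_sub, havgb, avg_const]; ring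
  have hAa2 : avg (fun x => (A (a x)) ^ 2) = σ := avg_sq_sub_mean I F
  have hAb2 : avg (fun x => (A (b x)) ^ 2) = σ' := avg_sq_sub_mean Iᶜ F
  have hprod2 : avg (fun x => (A (a x)) ^ 2 * (A (b x)) ^ 2) = σ * σ' := by
    have := avg_indep I F (fun y => (A y) ^ 2) (fun y => (A y) ^ 2)
    rw [← hAa2, ← hAb2]
    exact this
  set h1 : ℝ → ℝ := fun y => ((A y) ^ 2 + 2 * m * A y + (m ^ 2 - 1) / 2) * A y with hh1
  have hprod3 : avg (fun x => h1 (a x) * A (b x)) = 0 := by
    have := avg_indep I F h1 A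
    rw [hAb, mul_zero] at this
    exact this
  have hprod4 : avg (fun x => A (a x) * h1 (b x)) = 0 := by
    have := avg_indep I F A h1
    rw [hAa, zero_mul] at this
    exact this
  have hkey : ∀ x, 4 * (h1 (a x) * A (b x)) + 4 * (A (a x) * h1 (b x))
      + 4 * ((A (a x)) ^ 2 * (A (b x)) ^ 2) ≤ (P x) ^ 2 := by
    intro x
    have e : (P x) ^ 2 - (4 * (h1 (a x) * A (b x)) + 4 * (A (a x) * h1 (b x))
        + 4 * ((A (a x)) ^ 2 * (A (b x)) ^ 2))
        = (P x - 2 * (A (a x) * A (b x))) ^ 2 := by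
      simp only [hP, hh1, hA]; ring
    have := sq_nonneg (P x - 2 * (A (a x) * A (b x)))
    linarith
  have hle := avg_le_avg hkey
  rw [avg_add, avg_add, avg_mul_left, avg_mul_left, avg_mul_left, hprod3, hprod4, hprod2] at hle
  have : 4 * σ * σ' ≤ avg (fun x => (P x) ^ 2) := by linarith
  linarith

end Vale.Agent.P322
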