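import Vale.Agent.P322.Semi

namespace Vale.Agent.P322

open Real Finset

/-- Elementary upper bound for the binary entropy. -/
lemma binEntropy_le_mul {e : ℝ} (he1 : e < 1) :
    Real.binEntropy e ≤ e * (Real.log (1 / e) + 1) := by
  have h1e : 0 < 1 - e := by linarith
  have h := Real.one_sub_inv_le_log_of_pos h1e
  unfold Real.binEntropy
  rw [Real.log_inv (1 - e), one_div]
  have h2 : (1 - e) * (1 - (1 - e)⁻¹) = -e := by
    field_simp
    ring
  have h3 := mul_le_mul_of_nonneg_left h h1e.le
  rw [h2] at h3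
  nlinarith

/-- The logarithmic series bound. -/
lemma two_mul_le_log_sub {m : ℝ} (h0 : 0 ≤ m) (h1 : m < 1) :
    2 * m ≤ Real.log (1 + m) - Real.log (1 - m) := by
  have hm : |m| < 1 := by rw [abs_of_nonneg h0]; exact h1
  have hs := Real.hasSum_log_sub_log_of_abs_lt_one hm
  have := le_hasSum hs 0 (fun j _ => by positivity)
  simpa using this

/-- Pinsker-type bound for the binary Kullback-Leibler divergence from uniform, first form. -/
lemma kl_aux {m : ℝ} (h0 : 0 ≤ m) (h1 : m < 1) :
    m ^ 2 ≤ (1 + m) * Real.log (1 + m) + (1 - m) * Real.log (1 - m) := by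
  set g : ℝ → ℝ := fun x => (1 + x) * Real.log (1 + x) + (1 - x) * Real.log (1 - x) - x ^ 2 with hg
  have hd : ∀ x ∈ Set.Ico (0 : ℝ) 1,
      HasDerivAt g (Real.log (1 + x) - Real.log (1 - x) - 2 * x) x := by
    intro x hx
    have hx0 := hx.1
    have hx1 := hx.2
    have h1x : (1 + x) ≠ 0 := by linarith
    have h2x : (1 - x) ≠ 0 := by linarith
    have a1 : HasDerivAt (fun y : ℝ => 1 + y) 1 x := (hasDerivAt_id x).const_add 1
    have a2 : HasDerivAt (fun y : ℝ => 1 - y) (-1) x := (hasDerivAt_id x).const_sub 1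
    have b1 := a1.log h1x
    have b2 := a2.log h2x
    have c1 := a1.mul b1
    have c2 := a2.mul b2
    have c3 : HasDerivAt (fun y : ℝ => y ^ 2) (2 * x) x := by
      simpa using hasDerivAt_pow 2 x
    have c := (c1.add c2).sub c3
    refine c.congr_deriv ?_
    field_simp
    ring
  have hmono : MonotoneOn g (Set.Ico (0 : ℝ) 1) := by
    apply monotoneOn_of_deriv_nonneg (convex_Ico 0 1)
    · intro x hx
      exact (hd x hx).continuousAt.continuousWithinAt
    · intro x hx
      rw [interior_Ico] at hx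
      exact (hd x ⟨hx.1.le, hx.2⟩).differentiableAt.differentiableWithinAt
    · intro x hx
      rw [interior_Ico] at hx
      rw [(hd x ⟨hx.1.le, hx.2⟩).deriv]
      have := two_mul_le_log_sub hx.1.le hx.2
      linarith
  have h2 := hmono (Set.left_mem_Ico.mpr (by norm_num : (0 : ℝ) < 1)) ⟨h0, h1⟩ h0
  have h3 : g 0 = 0 := by simp [hg]
  rw [h3] at h2
  simp only [hg] at h2
  linarith

/-- Pinsker-type bound: `m^2/2` is at most the divergence from the uniform distribution. -/
lemma kl_ge {m : ℝ} (hm : |m| < 1) :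
    m ^ 2 / 2 ≤ Real.log 2 - Real.binEntropy ((1 + m) / 2) := by
  have hm' := abs_lt.mp hm
  have h1 : 0 < 1 + m := by linarith
  have h2 : 0 < 1 - m := by linarith
  have key : m ^ 2 ≤ (1 + m) * Real.log (1 + m) + (1 - m) * Real.log (1 - m) := by
    rcases le_total 0 m with h | h
    · exact kl_aux h hm'.2
    · have := kl_aux (m := -m) (by linarith) (by linarith)
      have e1 : 1 + -m = 1 - m := by ring
      have e2 : 1 - -m = 1 + m := by ring
      rw [e1, e2] at this
      nlinarith
  unfold Real.binEntropy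
  have e1 : 1 - (1 + m) / 2 = (1 - m) / 2 := by ring
  rw [e1, Real.log_inv, Real.log_inv, Real.log_div h1.ne' (by norm_num),
    Real.log_div h2.ne' (by norm_num)]
  nlinarith

/-- The bound on the rate of the dictator curve. -/
lemma rho_psi_le {e : ℝ} (he0 : 0 < e) (he1 : e < 1 / 2) :
    (1 - 2 * e) * psi (1 - 2 * e) ≤ Real.log (1 / e) / 2 := by
  have h1 : 0 < 1 + (1 - 2 * e) := by linarith
  have h2 : 1 - (1 - 2 * e) = 2 * e := by ring
  have e1 : (1 + (1 - 2 * e)) / (1 - (1 - 2 * e)) = (1 - e) * (1 / e) := by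
    rw [h2]; field_simp; ring
  have hpsi : psi (1 - 2 * e) = (1 / 2) * Real.log ((1 - e) * (1 / e)) := by
    unfold psi; rw [e1]
  have hle : Real.log ((1 - e) * (1 / e)) ≤ Real.log (1 / e) := by
    apply Real.log_le_log
    · have : 0 < 1 - e := by linarith
      positivity
    · have : 0 < 1 / e := by positivity
      nlinarith
  have hnn : 0 ≤ Real.log ((1 - e) * (1 / e)) := by
    apply Real.log_nonneg
    have : (1 - e) * (1 / e) = (1 - e) / e := by ring
    rw [this, le_div_iff₀ he0]
    linarith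
  rw [hpsi]
  nlinarith

/-- Numerics for the range of small crossover probabilities. -/
lemma numeric_small {e : ℝ} (he0 : 0 < e) (he1 : e ≤ 1 / 64) :
    2 * e * (Real.log (1 / e) + 1) * (Real.log (1 / e) + 2) ≤ 1.07 := by
  set l : ℝ := Real.log (1 / e) with hl
  have hexp : Real.exp l = 1 / e := by
    rw [hl, Real.exp_log (by positivity)]
  have hlog2 := Real.log_two_lt_d9
  have hlog2' := Real.log_two_gt_d9
  set c : ℝ := 6 * Real.log 2 with hc
  have hc64 : Real.exp c = 64 := by
    rw [hc]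
    have : (6 : ℝ) * Real.log 2 = Real.log (2 ^ 6) := by
      rw [Real.log_pow]; norm_num
    rw [this, Real.exp_log (by norm_num)]
    norm_num
  have hlc : c ≤ l := by
    rw [← Real.exp_le_exp, hc64, hexp]
    rw [le_div_iff₀ he0]
    linarith
  set v : ℝ := l - c with hv
  have hv0 : 0 ≤ v := by rw [hv]; linarith
  have hexpv := Real.quadratic_le_exp_of_nonneg hv0
  have hexpl : Real.exp l = 64 * Real.exp v := by
    rw [hv, Real.exp_sub, hc64]
    field_simp
  have hinv : 64 * (1 + v + v ^ 2 / 2) ≤ 1 / e := by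
    rw [← hexp, hexpl]
    linarith
  have hc1 : c ≤ 4.16 := by rw [hc]; linarith
  have hc0 : 0 ≤ c := by rw [hc]; linarith
  have hl1 : l + 1 ≤ v + 5.16 := by rw [hv]; linarith
  have hl2 : l + 2 ≤ v + 6.16 := by rw [hv]; linarith
  have hl0 : 0 ≤ l := by rw [hv] at hv0; linarith
  have hprod : (l + 1) * (l + 2) ≤ (v + 5.16) * (v + 6.16) :=
    mul_le_mul hl1 hl2 (by linarith) (by linarith)
  have hmain : 2 * ((l + 1) * (l + 2)) ≤ 1.07 * (1 / e) := by
    nlinarith [sq_nonneg v]
  have he' : e * (1 / e) = 1 := by field_simp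
  have := mul_le_mul_of_nonneg_left hmain he0.le
  have e2 : e * (1.07 * (1 / e)) = 1.07 := by
    rw [mul_left_comm, he', mul_one]
  rw [e2] at this
  nlinarith

/-- The inequality at a touching point. -/
lemma touch {e δ B V : ℝ} (he0 : 0 < e) (he1 : e ≤ 1 / 64) (hδ1 : δ < 1)
    (hδ2 : Real.log (Real.log (1 / e) + 1) - Real.log (Real.log 2) + 3 * Real.log 2
      ≤ δ * Real.log (1 / e))
    (hB : 1 - 2 * e * (Real.log (1 / e) + 1) ≤ B)
    (hV : 0 < V) (hV2 : V * Real.log 2 ≤ 2 * e * (Real.log (1 / e) + 1)) :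
    (1 - δ) * ((1 - 2 * e) * psi (1 - 2 * e)) < W B V := by
  set l : ℝ := Real.log (1 / e) with hl
  have hlog2 := Real.log_two_lt_d9
  have hlog2' := Real.log_two_gt_d9
  have hlog2pos : 0 < Real.log 2 := by linarith
  have hlogd : Real.log (Real.log 2) < 0 := Real.log_neg hlog2pos (by linarith)
  have hl4 : 4 ≤ l := by
    have h64 : (4 : ℝ) ≤ Real.log 64 := by
      have : (64 : ℝ) = 2 ^ 6 := by norm_num
      rw [this, Real.log_pow]
      push_cast
      linarith
    have h2 : Real.log 64 ≤ l := by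
      rw [hl]
      apply Real.log_le_log (by norm_num)
      rw [le_div_iff₀ he0]
      linarith
    linarith
  set κ : ℝ := 2 * e * (l + 1) with hκ
  have hκ0 : 0 < κ := by rw [hκ]; positivity
  have hnum : κ * (l + 2) ≤ 1.07 := by
    have := numeric_small he0 he1
    rw [hκ]
    linarith
  have hκ1 : κ ≤ 1.07 / 6 := by
    rw [le_div_iff₀ (by norm_num)]
    nlinarith
  have hB1 : 0 < 1 - κ := by linarith [(by norm_num : (1.07 : ℝ) / 6 < 1)]
  have hBpos : 0 < B := by linarith
  have hlogB : -2 * κ ≤ Real.log B := by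
    have h1 := Real.one_sub_inv_le_log_of_pos hBpos
    have h2 : B⁻¹ ≤ (1 - κ)⁻¹ := inv_anti₀ hB1 hB
    have h3 : (1 - κ)⁻¹ ≤ 1 + 2 * κ := by
      rw [inv_eq_one_div, div_le_iff₀ hB1]
      nlinarith
    linarith
  have hlogX : Real.log B + Real.log (Real.log 2) + l - Real.log (l + 1) ≤ Real.log (2 * B / V) := by
    have hlp : 0 < l + 1 := by linarith
    have h2 : B * (Real.log 2) * ((1 / e) / (l + 1)) ≤ 2 * B / V := by
      rw [div_eq_mul_inv, div_eq_mul_inv]
      have hVinv : (Real.log 2) * (l + 1)⁻¹ * (1 / e) ≤ 2 * V⁻¹ := by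
        rw [← div_eq_mul_inv, ← div_eq_mul_inv, div_mul_div_comm, mul_one, div_le_div_iff₀ (by positivity) hV]
        have : V * Real.log 2 ≤ 2 * (e * (l + 1)) := by
          rw [hκ] at hV2
          nlinarith
        nlinarith
      calc B * Real.log 2 * ((1 / e) * (l + 1)⁻¹) = B * ((Real.log 2) * (l + 1)⁻¹ * (1 / e)) := by ring
        _ ≤ B * (2 * V⁻¹) := mul_le_mul_of_nonneg_left hVinv hBpos.le
        _ = 2 * B * V⁻¹ := by ring
    have h3 : Real.log (B * (Real.log 2) * ((1 / e) / (l + 1)))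
        = Real.log B + Real.log (Real.log 2) + l - Real.log (l + 1) := by
      rw [Real.log_mul (by positivity) (by positivity), Real.log_mul hBpos.ne' hlog2pos.ne',
        Real.log_div (by positivity) hlp.ne', ← hl]
      ring
    rw [← h3]
    exact Real.log_le_log (by positivity) h2
  set X0 : ℝ := Real.log (Real.log 2) + l - Real.log (l + 1) - 1 - 2 * κ with hX0
  have hlnl : 0 ≤ Real.log (l + 1) := Real.log_nonneg (by linarith)
  have hδl : δ * l < l := by nlinarith
  have hX0pos : 0 < X0 := by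
    rw [hX0]
    have : 2 * κ ≤ 2 * (1.07 / 6) := by linarith
    norm_num at this
    linarith
  have hX0l : X0 ≤ l := by rw [hX0]; linarith
  have hX : X0 ≤ Real.log (2 * B / V) - 1 := by
    rw [hX0]; linarith
  have hW : (1 - κ) * X0 ≤ B * (Real.log (2 * B / V) - 1) := by
    apply mul_le_mul hB hX hX0pos.le hBpos.le
  have hW' : (1 / 2) * ((1 - κ) * X0) ≤ W B V := by
    unfold W
    have := mul_le_mul_of_nonneg_left hW (by norm_num : (0 : ℝ) ≤ 1 / 2)
    linarith
  have hle : (1 - κ) * X0 ≥ X0 - κ * l := by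
    have := mul_le_mul_of_nonneg_left hX0l hκ0.le
    nlinarith
  have hgap : (1 - δ) * l < X0 - κ * l := by
    rw [hX0]
    have hs : 2 * κ + κ * l = κ * (l + 2) := by ring
    have h3 : 3 * Real.log 2 > 1 + 1.07 := by linarith
    nlinarith
  have hrho := rho_psi_le he0 (by linarith)
  have hrho2 := mul_le_mul_of_nonneg_left hrho (by linarith : 0 ≤ 1 - δ)
  have : (1 - δ) * (l / 2) = (1 / 2) * ((1 - δ) * l) := by ring
  rw [this] at hrho2
  linarith

end Vale.Agent.P322
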