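import Vale.Agent.P322.Cube

namespace Vale.Agent.P322

open Real Finset

/-- The sign of a Boolean. -/
noncomputable def sg (b : Bool) : ℝ := if b then 1 else -1

@[simp] lemma sg_true : sg true = 1 := by simp [sg]
@[simp] lemma sg_false : sg false = -1 := by simp [sg]

lemma sg_not (b : Bool) : sg (!b) = - sg b := by
  cases b <;> simp

/-- One-coordinate noise kernel. -/
noncomputable def kk (t : ℝ) (b c : Bool) : ℝ := (1 + Real.exp (-t) * (sg b * sg c)) / 2

lemma kk_add_left (t : ℝ) (c : Bool) : kk t true c + kk t false c = 1 := by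
  unfold kk; cases c <;> simp <;> ring

lemma kk_add_right (t : ℝ) (b : Bool) : kk t b true + kk t b false = 1 := by
  unfold kk; cases b <;> simp <;> ring

lemma kk_pos {t : ℝ} (ht : 0 < t) (b c : Bool) : 0 < kk t b c := by
  have h1 : Real.exp (-t) < 1 := by
    rw [Real.exp_lt_one_iff]; linarith
  have h2 : 0 < Real.exp (-t) := Real.exp_pos _
  unfold kk
  cases b <;> cases c <;> simp <;> linarith

/-- The noise kernel on the cube. -/
noncomputable def KK {n : ℕ} (t : ℝ) (x y : Fin n → Bool) : ℝ := ∏ i, kk t (x i) (y i)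

lemma KK_pos {n : ℕ} {t : ℝ} (ht : 0 < t) (x y : Fin n → Bool) : 0 < KK t x y :=
  Finset.prod_pos (fun _ _ => kk_pos ht _ _)

lemma KK_sum_left {n : ℕ} (t : ℝ) (y : Fin n → Bool) : ∑ x, KK t x y = 1 := by
  unfold KK
  have h := Finset.prod_univ_sum (fun _ : Fin n => (Finset.univ : Finset Bool))
    (fun i b => kk t b (y i))
  rw [Fintype.piFinset_univ] at h
  rw [← h]
  simp [kk_add_left]

lemma KK_sum_right {n : ℕ} (t : ℝ) (x : Fin n → Bool) : ∑ y, KK t x y = 1 := by
  unfold KK
  have h := Finset.prod_univ_sum (fun _ : Fin n => (Finset.univ : Finset Bool))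
    (fun i b => kk t (x i) b)
  rw [Fintype.piFinset_univ] at h
  rw [← h]
  simp [kk_add_right]

lemma hasDerivAt_kk (t : ℝ) (b c : Bool) :
    HasDerivAt (fun s => kk s b c) (-(Real.exp (-t) * (sg b * sg c)) / 2) t := by
  unfold kk
  have h1 : HasDerivAt (fun s : ℝ => Real.exp (-s)) (-Real.exp (-t)) t := by
    have := (hasDerivAt_neg t).exp
    simpa using this
  have h2 := ((h1.mul_const (sg b * sg c)).const_add 1).div_const 2
  exact h2.congr_deriv (by ring)

/-- Removing coordinate `i` from the product shows how the kernel changes under a flip. -/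
lemma KK_sub_flp {n : ℕ} (t : ℝ) (x y : Fin n → Bool) (i : Fin n) :
    KK t x y - KK t x (flp i y)
      = (∏ j ∈ Finset.univ.erase i, kk t (x j) (y j)) * (Real.exp (-t) * (sg (x i) * sg (y i))) := by
  unfold KK
  rw [← Finset.mul_prod_erase Finset.univ (fun j => kk t (x j) (y j)) (Finset.mem_univ i)]
  rw [← Finset.mul_prod_erase Finset.univ (fun j => kk t (x j) (flp i y j)) (Finset.mem_univ i)]
  have h : ∏ j ∈ Finset.univ.erase i, kk t (x j) (flp i y j)
      = ∏ j ∈ Finset.univ.erase i, kk t (x j) (y j) := by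
    apply Finset.prod_congr rfl
    intro j hj
    have hji : j ≠ i := Finset.ne_of_mem_erase hj
    unfold flp
    rw [Function.update_of_ne hji]
  rw [h]
  have h2 : flp i y i = !y i := by
    unfold flp; simp
  rw [h2]
  unfold kk
  rw [sg_not]
  ring

lemma hasDerivAt_KK {n : ℕ} (t : ℝ) (x y : Fin n → Bool) :
    HasDerivAt (fun s => KK s x y)
      (-(1 / 2) * ∑ i, (KK t x y - KK t x (flp i y))) t := by
  unfold KK
  have h := HasDerivAt.fun_finsetProd (u := (Finset.univ : Finset (Fin n)))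
    (f := fun i s => kk s (x i) (y i))
    (f' := fun i => -(Real.exp (-t) * (sg (x i) * sg (y i))) / 2) (x := t)
    (fun i _ => hasDerivAt_kk t (x i) (y i))
  refine h.congr_deriv ?_
  rw [Finset.mul_sum]
  apply Finset.sum_congr rfl
  intro i _
  have := KK_sub_flp t x y i
  unfold KK at this
  rw [this, smul_eq_mul]
  ring

/-- The noise semigroup applied to `F`. -/
noncomputable def UU {n : ℕ} (F : (Fin n → Bool) → ℝ) (t : ℝ) (y : Fin n → Bool) : ℝ :=
  ∑ x, KK t x y * F x

lemma hasDerivAt_UU {n : ℕ} (F : (Fin n → Bool) → ℝ) (t : ℝ) (y : Fin n → Bool) :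
    HasDerivAt (fun s => UU F s y) (-(1 / 2) * ∑ i, (UU F t y - UU F t (flp i y))) t := by
  unfold UU
  have h := HasDerivAt.fun_sum (u := (Finset.univ : Finset (Fin n → Bool)))
    (A := fun x s => KK s x y * F x)
    (A' := fun x => (-(1 / 2) * ∑ i, (KK t x y - KK t x (flp i y))) * F x) (x := t)
    (fun x _ => (hasDerivAt_KK t x y).mul_const (F x))
  refine h.congr_deriv ?_
  have e : ∀ x : Fin n → Bool, (-(1 / 2) * ∑ i, (KK t x y - KK t x (flp i y))) * F x
      = ∑ i, (-(1 / 2) * (KK t x y * F x - KK t x (flp i y) * F x)) := by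
    intro x
    rw [Finset.mul_sum, Finset.sum_mul]
    apply Finset.sum_congr rfl
    intro i _
    ring
  simp only [e]
  rw [Finset.sum_comm, Finset.mul_sum]
  apply Finset.sum_congr rfl
  intro i _
  rw [← Finset.mul_sum, Finset.sum_sub_distrib]

lemma avg_UU {n : ℕ} (F : (Fin n → Bool) → ℝ) (t : ℝ) : avg (UU F t) = avg F := by
  unfold avg UU
  congr 1
  rw [Finset.sum_comm]
  apply Finset.sum_congr rfl
  intro x _
  rw [← Finset.sum_mul, KK_sum_right, one_mul]

lemma UU_add_one {n : ℕ} (F : (Fin n → Bool) → ℝ) (t : ℝ) (y : Fin n → Bool) :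
    1 + UU F t y = ∑ x, KK t x y * (1 + F x) := by
  unfold UU
  have : ∀ x, KK t x y * (1 + F x) = KK t x y + KK t x y * F x := fun x => by ring
  simp only [this]
  rw [Finset.sum_add_distrib, KK_sum_left]

lemma one_sub_UU {n : ℕ} (F : (Fin n → Bool) → ℝ) (t : ℝ) (y : Fin n → Bool) :
    1 - UU F t y = ∑ x, KK t x y * (1 - F x) := by
  unfold UU
  have : ∀ x, KK t x y * (1 - F x) = KK t x y - KK t x y * F x := fun x => by ring
  simp only [this]
  rw [Finset.sum_sub_distrib, KK_sum_left]

/-- The sign function attached to a Boolean function. -/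
noncomputable def signOf {n : ℕ} (f : (Fin n → Bool) → Bool) (x : Fin n → Bool) : ℝ := sg (f x)

lemma abs_UU_lt {n : ℕ} (f : (Fin n → Bool) → Bool) {t : ℝ} (ht : 0 < t)
    {x0 x1 : Fin n → Bool} (h0 : f x0 = true) (h1 : f x1 = false) (y : Fin n → Bool) :
    |UU (signOf f) t y| < 1 := by
  have hnn1 : ∀ x, 0 ≤ KK t x y * (1 + signOf f x) := by
    intro x
    apply mul_nonneg (KK_pos ht x y).le
    unfold signOf
    cases f x <;> simp
  have hnn2 : ∀ x, 0 ≤ KK t x y * (1 - signOf f x) := by
    intro x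
    apply mul_nonneg (KK_pos ht x y).le
    unfold signOf
    cases f x <;> simp
  have hp1 : 0 < KK t x0 y * (1 + signOf f x0) := by
    apply mul_pos (KK_pos ht x0 y)
    unfold signOf
    rw [h0]; simp
  have hp2 : 0 < KK t x1 y * (1 - signOf f x1) := by
    apply mul_pos (KK_pos ht x1 y)
    unfold signOf
    rw [h1]; simp
  have h3 : 0 < 1 + UU (signOf f) t y := by
    rw [UU_add_one]
    exact Finset.sum_pos' (fun x _ => hnn1 x) ⟨x0, Finset.mem_univ _, hp1⟩
  have h4 : 0 < 1 - UU (signOf f) t y := by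
    rw [one_sub_UU]
    exact Finset.sum_pos' (fun x _ => hnn2 x) ⟨x1, Finset.mem_univ _, hp2⟩
  rw [abs_lt]
  constructor <;> linarith

lemma abs_UU_le {n : ℕ} (f : (Fin n → Bool) → Bool) {t : ℝ} (ht : 0 < t) (y : Fin n → Bool) :
    |UU (signOf f) t y| ≤ 1 := by
  have hnn1 : ∀ x, 0 ≤ KK t x y * (1 + signOf f x) := by
    intro x
    apply mul_nonneg (KK_pos ht x y).le
    unfold signOf
    cases f x <;> simp
  have hnn2 : ∀ x, 0 ≤ KK t x y * (1 - signOf f x) := by
    intro x
    apply mul_nonneg (KK_pos ht x y).le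
    unfold signOf
    cases f x <;> simp
  have h3 : 0 ≤ 1 + UU (signOf f) t y := by
    rw [UU_add_one]
    exact Finset.sum_nonneg (fun x _ => hnn1 x)
  have h4 : 0 ≤ 1 - UU (signOf f) t y := by
    rw [one_sub_UU]
    exact Finset.sum_nonneg (fun x _ => hnn2 x)
  rw [abs_le]
  constructor <;> linarith

/-- Flipping a coordinate preserves averages. -/
lemma avg_comp_flp {n : ℕ} (i : Fin n) (g : (Fin n → Bool) → ℝ) :
    avg (fun y => g (flp i y)) = avg g := by
  unfold avg
  congr 1
  have hinv : Function.Involutive (flp i) := flp_flp i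
  exact Equiv.sum_comp hinv.toPerm g

/-- Rewriting the Dirichlet form with the symmetry of the cube. -/
lemma energy_eq {n : ℕ} (u : (Fin n → Bool) → ℝ) :
    energy u = avg (fun y => psi (u y) * ((1 / 2) * ∑ i, (u y - u (flp i y)))) := by
  unfold energy
  have h : ∀ y, psi (u y) * ((1 / 2) * ∑ i, (u y - u (flp i y)))
      = ∑ i, (1 / 2) * (psi (u y) * (u y - u (flp i y))) := by
    intro y
    rw [Finset.mul_sum, Finset.mul_sum]
    apply Finset.sum_congr rfl
    intro i _
    ring
  simp only [h]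
  have hswap : avg (fun y => ∑ i, (1 / 2) * (psi (u y) * (u y - u (flp i y))))
      = ∑ i, avg (fun y => (1 / 2) * (psi (u y) * (u y - u (flp i y)))) := by
    unfold avg
    rw [Finset.sum_comm, Finset.sum_div]
  rw [hswap]
  apply Finset.sum_congr rfl
  intro i _
  have h1 := avg_comp_flp i (fun y => (1 / 2) * (psi (u y) * (u y - u (flp i y))))
  simp only [flp_flp] at h1
  have h2 : (fun y => cost (u y) (u (flp i y)))
      = fun y => (1 / 2 : ℝ) * ((1 / 2) * (psi (u y) * (u y - u (flp i y))))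
          + (1 / 2 : ℝ) * ((1 / 2) * (psi (u (flp i y)) * (u (flp i y) - u y))) := by
    funext y
    unfold cost
    ring
  rw [h2, avg_add]
  have h3 := avg_mul_left (1 / 2 : ℝ)
    (fun y => (1 / 2 : ℝ) * (psi (u (flp i y)) * (u (flp i y) - u y)))
  have h4 := avg_mul_left (1 / 2 : ℝ)
    (fun y => (1 / 2 : ℝ) * (psi (u y) * (u y - u (flp i y))))
  beta_reduce at h3 h4
  rw [h3, h4, h1]
  ring

/-- The conditional entropy along the semigroup, in nats. -/
noncomputable def HH {n : ℕ} (F : (Fin n → Bool) → ℝ) (t : ℝ) : ℝ :=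
  avg (fun y => Real.binEntropy ((1 + UU F t y) / 2))

lemma log_sub_psi {u : ℝ} (hu : |u| < 1) :
    Real.log (1 - (1 + u) / 2) - Real.log ((1 + u) / 2) = -2 * psi u := by
  have hu' := abs_lt.mp hu
  have h1 : 0 < 1 + u := by linarith
  have h2 : 0 < 1 - u := by linarith
  have e : 1 - (1 + u) / 2 = (1 - u) / 2 := by ring
  rw [e, Real.log_div h2.ne' (by norm_num), Real.log_div h1.ne' (by norm_num)]
  unfold psi
  rw [Real.log_div h1.ne' h2.ne']
  ring

lemma hasDerivAt_HH {n : ℕ} (F : (Fin n → Bool) → ℝ) {t : ℝ}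
    (hU : ∀ y, |UU F t y| < 1) : HasDerivAt (HH F) (energy (UU F t)) t := by
  rw [energy_eq]
  unfold HH avg
  have hpt : ∀ y ∈ (Finset.univ : Finset (Fin n → Bool)),
      HasDerivAt (fun s => Real.binEntropy ((1 + UU F s y) / 2))
        (psi (UU F t y) * ((1 / 2) * ∑ i, (UU F t y - UU F t (flp i y)))) t := by
    intro y _
    have hu' := abs_lt.mp (hU y)
    have h1 : (1 + UU F t y) / 2 ≠ 0 := by
      have : 0 < (1 + UU F t y) / 2 := by linarith
      exact this.ne'
    have h2 : (1 + UU F t y) / 2 ≠ 1 := by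
      have : (1 + UU F t y) / 2 < 1 := by linarith
      exact this.ne
    have h3 := Real.hasDerivAt_binEntropy h1 h2
    have h4 := ((hasDerivAt_UU F t y).const_add 1).div_const 2
    have h5 := h3.comp t h4
    refine h5.congr_deriv ?_
    rw [log_sub_psi (hU y)]
    ring
  have := (HasDerivAt.fun_sum hpt).div_const ((2 : ℝ) ^ n)
  exact this

/-- The comparison between `1 - u^2` and the entropy. -/
lemma one_sub_sq_le_entropy {u : ℝ} (hu : |u| ≤ 1) :
    (1 - u ^ 2) * Real.log 2 ≤ 2 * Real.binEntropy ((1 + u) / 2) := by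
  have hu' := abs_le.mp hu
  have hlog : 0 < Real.log 2 := Real.log_pos (by norm_num)
  have hc := Real.strictConcave_binEntropy.concaveOn
  have key : ∀ p : ℝ, 0 ≤ p → p ≤ 1 / 2 → 2 * p * Real.log 2 ≤ Real.binEntropy p := by
    intro p hp0 hp1
    have h0 : (0 : ℝ) ∈ Set.Icc (0 : ℝ) 1 := by simp
    have h12 : (2 : ℝ)⁻¹ ∈ Set.Icc (0 : ℝ) 1 := by
      constructor <;> norm_num
    have := hc.2 h0 h12 (by linarith : 0 ≤ 1 - 2 * p) (by linarith : 0 ≤ 2 * p) (by ring)
    simp only [smul_eq_mul, Real.binEntropy_zero, Real.binEntropy_two_inv, mul_zero,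
      zero_add] at this
    have e : 2 * p * (2 : ℝ)⁻¹ = p := by ring
    rw [e] at this
    have e2 : Real.binEntropy p = Real.binEntropy ((1 - 2 * p) * 0 + 2 * p * 2⁻¹) := by
      congr 1; ring
    rw [e2]
    linarith
  rcases le_total u 0 with h | h
  · have := key ((1 + u) / 2) (by linarith) (by linarith)
    have h2 : (1 - u ^ 2) ≤ 2 * (1 + u) := by nlinarith
    have h3 := mul_le_mul_of_nonneg_right h2 hlog.le
    nlinarith
  · have := key ((1 - u) / 2) (by linarith) (by linarith)
    have e : Real.binEntropy ((1 - u) / 2) = Real.binEntropy ((1 + u) / 2) := by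
      rw [← Real.binEntropy_one_sub]
      congr 1
      ring
    rw [e] at this
    have h2 : (1 - u ^ 2) ≤ 2 * (1 - u) := by nlinarith
    have h3 := mul_le_mul_of_nonneg_right h2 hlog.le
    nlinarith

end Vale.Agent.P322
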