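import Vale.Agent.P322.Kbound

namespace Vale.Agent.P322

open Real Finset

variable {n : ℕ}

/-- Strict bound for the semigroup applied to a bounded non-extremal function. -/
lemma abs_UU_lt_gen {F : (Fin n → Bool) → ℝ} (h1 : ∀ x, |F x| ≤ 1) (h2 : ∃ x, F x < 1)
    (h3 : ∃ x, -1 < F x) {t : ℝ} (ht : 0 < t) (y : Fin n → Bool) : |UU F t y| < 1 := by
  obtain ⟨x2, hx2⟩ := h2
  obtain ⟨x3, hx3⟩ := h3
  have hnn1 : ∀ x, 0 ≤ KK t x y * (1 + F x) := fun x =>
    mul_nonneg (KK_pos ht x y).le (by linarith [(abs_le.mp (h1 x)).1])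
  have hnn2 : ∀ x, 0 ≤ KK t x y * (1 - F x) := fun x =>
    mul_nonneg (KK_pos ht x y).le (by linarith [(abs_le.mp (h1 x)).2])
  have h4 : 0 < 1 + UU F t y := by
    rw [UU_add_one]
    exact Finset.sum_pos' (fun x _ => hnn1 x)
      ⟨x3, Finset.mem_univ _, mul_pos (KK_pos ht x3 y) (by linarith)⟩
  have h5 : 0 < 1 - UU F t y := by
    rw [one_sub_UU]
    exact Finset.sum_pos' (fun x _ => hnn2 x)
      ⟨x2, Finset.mem_univ _, mul_pos (KK_pos ht x2 y) (by linarith)⟩
  rw [abs_lt]
  constructor <;> linarith

/-- Non-strict bound for the semigroup. -/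
lemma abs_UU_le_gen {F : (Fin n → Bool) → ℝ} (h1 : ∀ x, |F x| ≤ 1) {t : ℝ} (ht : 0 < t)
    (y : Fin n → Bool) : |UU F t y| ≤ 1 := by
  have hnn1 : ∀ x, 0 ≤ KK t x y * (1 + F x) := fun x =>
    mul_nonneg (KK_pos ht x y).le (by linarith [(abs_le.mp (h1 x)).1])
  have hnn2 : ∀ x, 0 ≤ KK t x y * (1 - F x) := fun x =>
    mul_nonneg (KK_pos ht x y).le (by linarith [(abs_le.mp (h1 x)).2])
  have h4 : 0 ≤ 1 + UU F t y := by
    rw [UU_add_one]
    exact Finset.sum_nonneg (fun x _ => hnn1 x)
  have h5 : 0 ≤ 1 - UU F t y := by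
    rw [one_sub_UU]
    exact Finset.sum_nonneg (fun x _ => hnn2 x)
  rw [abs_le]
  constructor <;> linarith

lemma continuous_UU (F : (Fin n → Bool) → ℝ) (y : Fin n → Bool) :
    Continuous (fun s => UU F s y) :=
  continuous_iff_continuousAt.mpr (fun t => (hasDerivAt_UU F t y).continuousAt)

lemma continuous_HH (F : (Fin n → Bool) → ℝ) : Continuous (HH F) := by
  unfold HH avg
  apply Continuous.div_const
  apply continuous_finsetSum
  intro y _
  exact Real.binEntropy_continuous.comp (((continuous_UU F y).const_add 1).div_const 2)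

lemma HH_zero (F : (Fin n → Bool) → ℝ) :
    HH F 0 = avg (fun y => Real.binEntropy ((1 + F y) / 2)) := by
  unfold HH
  rw [UU_zero]

lemma cost_nonneg {a b : ℝ} (ha : |a| < 1) (hb : |b| < 1) : 0 ≤ cost a b := by
  have h := cost_ge ha hb
  have h1 : 0 ≤ Real.log (1 + |a - b| / (1 - (a ^ 2 + b ^ 2) / 2)) := by
    apply Real.log_nonneg
    have := div_nonneg (abs_nonneg (a - b)) (nu_pos ha hb).le
    linarith
  have h2 : 0 ≤ |a - b| / 4 := by positivity
  exact (mul_nonneg h2 h1).trans h

lemma energy_nonneg {u : (Fin n → Bool) → ℝ} (hu : ∀ x, |u x| < 1) : 0 ≤ energy u := by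
  unfold energy
  apply Finset.sum_nonneg
  intro i _
  exact avg_nonneg (fun x => cost_nonneg (hu x) (hu _))

/-- The quadratic mass is controlled by the entropy. -/
lemma V_le_gen {u : (Fin n → Bool) → ℝ} (hu : ∀ x, |u x| ≤ 1) :
    avg (fun y => 1 - (u y) ^ 2) * Real.log 2 ≤ avg (fun y => Real.binEntropy ((1 + u y) / 2)) := by
  rw [← avg_mul_right]
  exact avg_le_avg (fun y => entropy_ge_sq (hu y))

/-- The one-coordinate restriction maps. -/
noncomputable def gp (F : (Fin n → Bool) → ℝ) (j : Fin n) (x : Fin n → Bool) : ℝ :=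
  F (Function.update x j true)

noncomputable def gm (F : (Fin n → Bool) → ℝ) (j : Fin n) (x : Fin n → Bool) : ℝ :=
  F (Function.update x j false)

lemma update_flp (j : Fin n) (x : Fin n → Bool) (b : Bool) :
    Function.update (flp j x) j b = Function.update x j b := by
  unfold flp
  simp

lemma gp_flp (F : (Fin n → Bool) → ℝ) (j : Fin n) (x : Fin n → Bool) :
    gp F j (flp j x) = gp F j x := by
  unfold gp; rw [update_flp]

lemma gm_flp (F : (Fin n → Bool) → ℝ) (j : Fin n) (x : Fin n → Bool) :
    gm F j (flp j x) = gm F j x := by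
  unfold gm; rw [update_flp]

lemma update_self_of_true {j : Fin n} {x : Fin n → Bool} (h : x j = true) :
    Function.update x j true = x := by
  rw [← h]; exact Function.update_eq_self j x

lemma update_self_of_false {j : Fin n} {x : Fin n → Bool} (h : x j = false) :
    Function.update x j false = x := by
  rw [← h]; exact Function.update_eq_self j x

lemma flp_of_true {j : Fin n} {x : Fin n → Bool} (h : x j = true) :
    flp j x = Function.update x j false := by
  unfold flp; rw [h]; rfl

lemma flp_of_false {j : Fin n} {x : Fin n → Bool} (h : x j = false) :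
    flp j x = Function.update x j true := by
  unfold flp; rw [h]; rfl

/-- `F` and its two restrictions. -/
lemma F_add_flp (F : (Fin n → Bool) → ℝ) (j : Fin n) (x : Fin n → Bool) (c0 c1 : ℝ) :
    (if x j = true then c0 else c1) * F x + (if x j = true then c1 else c0) * F (flp j x)
      = c0 * gp F j x + c1 * gm F j x := by
  unfold gp gm
  by_cases h : x j = true
  · rw [if_pos h, if_pos h, flp_of_true h]
    conv_rhs => rw [update_self_of_true h]
  · have h' : x j = false := by simpa using h
    rw [if_neg h, if_neg h, flp_of_false h']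
    conv_rhs => rw [update_self_of_false h']
    ring

/-- Symmetrisation of a sum weighted by the kernel at one coordinate. -/
lemma KK_fold (t : ℝ) (y : Fin n → Bool) (j : Fin n) (G : (Fin n → Bool) → ℝ) :
    ∑ x, KK t x y * G x = (1 / 2) * ∑ x, (∏ i ∈ Finset.univ.erase j, kk t (x i) (y i))
        * ((if x j = true then kk t true (y j) else kk t false (y j)) * G x
          + (if x j = true then kk t false (y j) else kk t true (y j)) * G (flp j x)) := by
  have hinv : Function.Involutive (flp j) := flp_flp j
  have hflip := Equiv.sum_comp hinv.toPerm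
    (fun x => KK t x y * G x)
  have hflip' : ∑ x, KK t (flp j x) y * G (flp j x) = ∑ x, KK t x y * G x := hflip
  have hK : ∀ x : Fin n → Bool, KK t x y
      = (if x j = true then kk t true (y j) else kk t false (y j))
        * ∏ i ∈ Finset.univ.erase j, kk t (x i) (y i) := by
    intro x
    unfold KK
    rw [← Finset.mul_prod_erase Finset.univ (fun i => kk t (x i) (y i)) (Finset.mem_univ j)]
    congr 1
    cases hx : x j <;> simp
  have hK' : ∀ x : Fin n → Bool, KK t (flp j x) y
      = (if x j = true then kk t false (y j) else kk t true (y j))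
        * ∏ i ∈ Finset.univ.erase j, kk t (x i) (y i) := by
    intro x
    unfold KK
    rw [← Finset.mul_prod_erase Finset.univ (fun i => kk t (flp j x i) (y i)) (Finset.mem_univ j)]
    have e1 : ∏ i ∈ Finset.univ.erase j, kk t (flp j x i) (y i)
        = ∏ i ∈ Finset.univ.erase j, kk t (x i) (y i) := by
      apply Finset.prod_congr rfl
      intro i hi
      have hij : i ≠ j := Finset.ne_of_mem_erase hi
      unfold flp
      rw [Function.update_of_ne hij]
    rw [e1]
    congr 1
    unfold flp
    cases hx : x j <;> simp [hx]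
  have h2 : ∑ x, KK t x y * G x
      = (1 / 2) * (∑ x, KK t x y * G x + ∑ x, KK t (flp j x) y * G (flp j x)) := by
    rw [hflip']; ring
  rw [h2, ← Finset.sum_add_distrib]
  congr 1
  apply Finset.sum_congr rfl
  intro x _
  rw [hK x, hK' x]
  ring

/-- Collapsing one coordinate of the semigroup. -/
lemma UU_fold (F : (Fin n → Bool) → ℝ) (j : Fin n) (t : ℝ) (y : Fin n → Bool) :
    UU F t y = UU (fun x => kk t true (y j) * gp F j x + kk t false (y j) * gm F j x) t y := by
  unfold UU
  rw [KK_fold t y j F, KK_fold t y j (fun x => kk t true (y j) * gp F j x + kk t false (y j) * gm F j x)]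
  congr 1
  apply Finset.sum_congr rfl
  intro x _
  congr 1
  rw [F_add_flp F j x]
  simp only [gp_flp, gm_flp]
  have hsum : (if x j = true then kk t true (y j) else kk t false (y j))
      + (if x j = true then kk t false (y j) else kk t true (y j)) = 1 := by
    cases hx : x j <;> simp [kk_add_left] <;> rw [add_comm] <;> exact kk_add_left t (y j)
  have := congrArg (fun c => c * (kk t true (y j) * gp F j x + kk t false (y j) * gm F j x)) hsum
  simp only [one_mul, add_mul] at this
  linarith

lemma kk_not_not (t : ℝ) (b c : Bool) : kk t (!b) (!c) = kk t b c := by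
  unfold kk
  rw [sg_not, sg_not]
  ring

lemma KK_flp_flp (t : ℝ) (j : Fin n) (x y : Fin n → Bool) :
    KK t (flp j x) (flp j y) = KK t x y := by
  unfold KK
  apply Finset.prod_congr rfl
  intro i _
  by_cases hij : i = j
  · subst hij
    unfold flp
    simp [kk_not_not]
  · unfold flp
    rw [Function.update_of_ne hij, Function.update_of_ne hij]

/-- Functions not depending on a coordinate keep that property. -/
lemma UU_flp_invariant {G : (Fin n → Bool) → ℝ} {j : Fin n} (hG : ∀ x, G (flp j x) = G x)
    (t : ℝ) (y : Fin n → Bool) : UU G t (flp j y) = UU G t y := by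
  unfold UU
  have hinv : Function.Involutive (flp j) := flp_flp j
  have h := Equiv.sum_comp hinv.toPerm
    (fun x => KK t x (flp j y) * G x)
  have h' : ∑ x, KK t (flp j x) (flp j y) * G (flp j x) = ∑ x, KK t x (flp j y) * G x := h
  rw [← h']
  apply Finset.sum_congr rfl
  intro x _
  rw [KK_flp_flp, hG]

/-- The two mixtures at the heavy coordinate. -/
noncomputable def mixP (e : ℝ) (F : (Fin n → Bool) → ℝ) (j : Fin n) (x : Fin n → Bool) : ℝ :=
  (1 - e) * gp F j x + e * gm F j x

noncomputable def mixM (e : ℝ) (F : (Fin n → Bool) → ℝ) (j : Fin n) (x : Fin n → Bool) : ℝ :=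
  e * gp F j x + (1 - e) * gm F j x

lemma mixP_flp (e : ℝ) (F : (Fin n → Bool) → ℝ) (j : Fin n) (x : Fin n → Bool) :
    mixP e F j (flp j x) = mixP e F j x := by
  unfold mixP; rw [gp_flp, gm_flp]

lemma mixM_flp (e : ℝ) (F : (Fin n → Bool) → ℝ) (j : Fin n) (x : Fin n → Bool) :
    mixM e F j (flp j x) = mixM e F j x := by
  unfold mixM; rw [gp_flp, gm_flp]

lemma kk_values {e T : ℝ} (hT : Real.exp (-T) = 1 - 2 * e) :
    kk T true true = 1 - e ∧ kk T true false = e ∧ kk T false true = e ∧ kk T false false = 1 - e := by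
  unfold kk
  rw [hT]
  simp only [sg_true, sg_false]
  refine ⟨?_, ?_, ?_, ?_⟩ <;> ring

/-- The semigroup at time `T` in terms of the two mixtures. -/
lemma UU_split (F : (Fin n → Bool) → ℝ) (j : Fin n) {e T : ℝ} (hT : Real.exp (-T) = 1 - 2 * e)
    (y : Fin n → Bool) :
    UU F T y = if y j = true then UU (mixP e F j) T y else UU (mixM e F j) T y := by
  obtain ⟨h1, h2, h3, h4⟩ := kk_values hT
  rw [UU_fold F j T y]
  by_cases hy : y j = true
  · rw [if_pos hy, hy, h1, h3]
    rfl
  · have hy' : y j = false := by simpa using hy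
    rw [if_neg hy, hy', h2, h4]
    rfl

/-- The conditional entropy at time `T` in terms of the two mixtures. -/
lemma HH_split (F : (Fin n → Bool) → ℝ) (j : Fin n) {e T : ℝ} (hT : Real.exp (-T) = 1 - 2 * e) :
    HH F T = (HH (mixP e F j) T + HH (mixM e F j) T) / 2 := by
  unfold HH
  rw [← avg_comp_flp j]
  have h := avg_comp_flp j (fun y => Real.binEntropy ((1 + UU F T y) / 2))
  have h2 : avg (fun y => Real.binEntropy ((1 + UU F T y) / 2))
      = (avg (fun y => Real.binEntropy ((1 + UU F T y) / 2))
          + avg (fun y => Real.binEntropy ((1 + UU F T (flp j y)) / 2))) / 2 := by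
    rw [h]; ring
  rw [h]
  rw [h2, ← avg_add]
  have hp : ∀ y, UU (mixP e F j) T (flp j y) = UU (mixP e F j) T y :=
    UU_flp_invariant (mixP_flp e F j) T
  have hm : ∀ y, UU (mixM e F j) T (flp j y) = UU (mixM e F j) T y :=
    UU_flp_invariant (mixM_flp e F j) T
  have hpt : (fun y => Real.binEntropy ((1 + UU F T y) / 2)
        + Real.binEntropy ((1 + UU F T (flp j y)) / 2))
      = fun y => Real.binEntropy ((1 + UU (mixP e F j) T y) / 2)
        + Real.binEntropy ((1 + UU (mixM e F j) T y) / 2) := by
    funext y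
    rw [UU_split F j hT y, UU_split F j hT (flp j y)]
    by_cases hy : y j = true
    · have hfl : flp j y j = false := by
        unfold flp; simp [hy]
      rw [if_pos hy, if_neg (by simp [hfl]), hm]
    · have hy' : y j = false := by simpa using hy
      have hfl : flp j y j = true := by
        unfold flp; simp [hy']
      rw [if_neg hy, if_pos hfl, hp]
      ring
  rw [hpt, avg_add]

/-- The mean of `F` through the two restrictions. -/
lemma avg_eq_gp_gm (F : (Fin n → Bool) → ℝ) (j : Fin n) :
    avg F = (avg (gp F j) + avg (gm F j)) / 2 := by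
  have h1 := avg_comp_flp j F
  have h2 : avg F = (1 / 2) * avg (fun x => F x + F (flp j x)) := by
    rw [avg_add, h1]; ring
  have h3 : (fun x => F x + F (flp j x)) = fun x => gp F j x + gm F j x := by
    funext x
    have := F_add_flp F j x 1 1
    simpa using this
  rw [h2, h3, avg_add]
  ring

/-- The average of a function of one coordinate. -/
lemma avg_of_coord (j : Fin n) (φ : Bool → ℝ) :
    avg (fun x : Fin n → Bool => φ (x j)) = (φ true + φ false) / 2 := by
  have h1 := avg_comp_flp j (fun x : Fin n → Bool => φ (x j))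
  have h2 : avg (fun x : Fin n → Bool => φ (x j))
      = (1 / 2) * avg (fun x : Fin n → Bool => φ (x j) + φ (flp j x j)) := by
    rw [avg_add, h1]; ring
  have h3 : (fun x : Fin n → Bool => φ (x j) + φ (flp j x j)) = fun _ => φ true + φ false := by
    funext x
    unfold flp
    cases hx : x j <;> simp [hx]
    ring
  rw [h2, h3, avg_const]
  ring

/-- The conditional expectation given one coordinate. -/
lemma Av_single (F : (Fin n → Bool) → ℝ) (j : Fin n) (x : Fin n → Bool) :
    Av {j} F x = if x j = true then avg (gp F j) else avg (gm F j) := by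
  have hm : ∀ w, mrg {j} x w = Function.update w j (x j) := by
    intro w
    funext i
    by_cases hij : i = j
    · subst hij
      simp [mrg]
    · simp [mrg, hij, Function.update_of_ne hij]
  unfold Av
  simp only [hm]
  cases hx : x j
  · simp only [Bool.false_eq_true, if_false]
    rfl
  · simp only [if_true]
    rfl

/-- The quadratic mass of one coordinate. -/
lemma SS_single (F : (Fin n → Bool) → ℝ) (j : Fin n) :
    SS {j} F - (avg F) ^ 2 = ((avg (gp F j) - avg (gm F j)) / 2) ^ 2 := by
  unfold SS
  simp only [Av_single]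
  have h := avg_of_coord j (fun b => (if b = true then avg (gp F j) else avg (gm F j)) ^ 2)
  simp only [if_true, Bool.false_eq_true, if_false] at h
  rw [h, avg_eq_gp_gm F j]
  ring

lemma avg_mixP (e : ℝ) (F : (Fin n → Bool) → ℝ) (j : Fin n) :
    avg (mixP e F j) = (1 - e) * avg (gp F j) + e * avg (gm F j) := by
  unfold mixP
  rw [avg_add, avg_mul_left, avg_mul_left]

lemma avg_mixM (e : ℝ) (F : (Fin n → Bool) → ℝ) (j : Fin n) :
    avg (mixM e F j) = e * avg (gp F j) + (1 - e) * avg (gm F j) := by
  unfold mixM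
  rw [avg_add, avg_mul_left, avg_mul_left]

/-- Linearity of the semigroup. -/
lemma UU_mix (a b : ℝ) (F G : (Fin n → Bool) → ℝ) (t : ℝ) (y : Fin n → Bool) :
    UU (fun x => a * F x + b * G x) t y = a * UU F t y + b * UU G t y := by
  unfold UU
  rw [Finset.mul_sum, Finset.mul_sum, ← Finset.sum_add_distrib]
  apply Finset.sum_congr rfl
  intro x _
  ring

lemma UU_const_add (c a : ℝ) (F : (Fin n → Bool) → ℝ) (t : ℝ) (y : Fin n → Bool) :
    UU (fun x => c + a * F x) t y = c + a * UU F t y := by
  unfold UU
  have h : ∀ x, KK t x y * (c + a * F x) = c * KK t x y + a * (KK t x y * F x) := fun x => by ring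
  simp only [h]
  rw [Finset.sum_add_distrib, ← Finset.mul_sum, ← Finset.mul_sum, KK_sum_left]
  ring

lemma UU_neg (F : (Fin n → Bool) → ℝ) (t : ℝ) (y : Fin n → Bool) :
    UU (fun x => - F x) t y = - UU F t y := by
  have := UU_const_add 0 (-1) F t y
  simp only [zero_add, neg_mul, one_mul] at this
  exact this

lemma HH_neg (F : (Fin n → Bool) → ℝ) (t : ℝ) : HH (fun x => - F x) t = HH F t := by
  unfold HH
  congr 1
  funext y
  rw [UU_neg, ← Real.binEntropy_one_sub]
  congr 1
  ring

end Vale.Agent.P322
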