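import Vale.Agent.P322.Comparison

namespace Vale.Agent.P322

open Real Finset

/-- Cubic upper bound for `log (1+u)`. -/
lemma log_one_add_le_cubic {u : ℝ} (hu : 0 ≤ u) :
    Real.log (1 + u) ≤ u - u ^ 2 / 2 + u ^ 3 / 3 := by
  set f : ℝ → ℝ := fun x => x - x ^ 2 / 2 + x ^ 3 / 3 - Real.log (1 + x) with hf
  have hd : ∀ x ∈ Set.Ici (0 : ℝ), HasDerivAt f (x ^ 3 / (1 + x)) x := by
    intro x hx
    have hx0 : (0 : ℝ) ≤ x := hx
    have h1x : (1 + x) ≠ 0 := by linarith
    have a1 : HasDerivAt (fun y : ℝ => 1 + y) 1 x := (hasDerivAt_id x).const_add 1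
    have b1 := a1.log h1x
    have c2 : HasDerivAt (fun y : ℝ => y ^ 2 / 2) x x := by
      have := (hasDerivAt_pow 2 x).div_const 2
      simpa using this
    have c3 : HasDerivAt (fun y : ℝ => y ^ 3 / 3) (x ^ 2) x := by
      have := (hasDerivAt_pow 3 x).div_const 3
      simpa using this
    have c := (((hasDerivAt_id x).sub c2).add c3).sub b1
    refine c.congr_deriv ?_
    field_simp
    ring
  have hmono : MonotoneOn f (Set.Ici (0 : ℝ)) := by
    apply monotoneOn_of_deriv_nonneg (convex_Ici 0)
    · intro x hx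
      exact (hd x hx).continuousAt.continuousWithinAt
    · intro x hx
      rw [interior_Ici] at hx
      exact (hd x (Set.mem_Ici.mpr (le_of_lt hx))).differentiableAt.differentiableWithinAt
    · intro x hx
      rw [interior_Ici] at hx
      rw [(hd x (Set.mem_Ici.mpr (le_of_lt hx))).deriv]
      have hx0 : (0 : ℝ) < x := hx
      positivity
  have h2 := hmono (Set.mem_Ici.mpr le_rfl) (Set.mem_Ici.mpr hu) hu
  have h3 : f 0 = 0 := by simp [hf]
  rw [h3] at h2
  simp only [hf] at h2
  linarith

/-- Cubic upper bound for `log (1-u)`. -/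
lemma log_one_sub_le_cubic {u : ℝ} (hu : 0 ≤ u) (hu1 : u < 1) :
    Real.log (1 - u) ≤ - u - u ^ 2 / 2 - u ^ 3 / 3 := by
  set f : ℝ → ℝ := fun x => - x - x ^ 2 / 2 - x ^ 3 / 3 - Real.log (1 - x) with hf
  have hd : ∀ x ∈ Set.Ico (0 : ℝ) 1, HasDerivAt f (x ^ 3 / (1 - x)) x := by
    intro x hx
    have h1x : (1 - x) ≠ 0 := by linarith [hx.2]
    have a1 : HasDerivAt (fun y : ℝ => 1 - y) (-1) x := (hasDerivAt_id x).const_sub 1
    have b1 := a1.log h1x
    have c2 : HasDerivAt (fun y : ℝ => y ^ 2 / 2) x x := by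
      have := (hasDerivAt_pow 2 x).div_const 2
      simpa using this
    have c3 : HasDerivAt (fun y : ℝ => y ^ 3 / 3) (x ^ 2) x := by
      have := (hasDerivAt_pow 3 x).div_const 3
      simpa using this
    have c := (((hasDerivAt_id x).neg.sub c2).sub c3).sub b1
    refine c.congr_deriv ?_
    field_simp
    ring
  have hmono : MonotoneOn f (Set.Ico (0 : ℝ) 1) := by
    apply monotoneOn_of_deriv_nonneg (convex_Ico 0 1)
    · intro x hx
      exact (hd x hx).continuousAt.continuousWithinAt
    · intro x hx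
      rw [interior_Ico] at hx
      exact (hd x ⟨hx.1.le, hx.2⟩).differentiableAt.differentiableWithinAt
    · intro x hx
      rw [interior_Ico] at hx
      rw [(hd x ⟨hx.1.le, hx.2⟩).deriv]
      have h1 := hx.1
      have h2 : 0 < 1 - x := by linarith [hx.2]
      positivity
  have h2 := hmono (Set.left_mem_Ico.mpr (by norm_num : (0 : ℝ) < 1)) ⟨hu, hu1⟩ hu
  have h3 : f 0 = 0 := by simp [hf]
  rw [h3] at h2
  simp only [hf] at h2
  linarith

/-- The inequality `h(p) ≥ 4 p (1-p)` in the form needed here, nonnegative `u`. -/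
lemma entropy_ge_sq_aux {u : ℝ} (hu0 : 0 ≤ u) (hu1 : u ≤ 1) :
    (1 - u ^ 2) * Real.log 2 ≤ Real.binEntropy ((1 + u) / 2) := by
  have hlog2 := Real.log_two_gt_d9
  have hlog2' := Real.log_two_lt_d9
  by_cases hu : u ≤ 3 / 4
  · have h1 : 0 < 1 + u := by linarith
    have h2 : 0 < 1 - u := by linarith
    have l1 := log_one_add_le_cubic hu0
    have l2 := log_one_sub_le_cubic hu0 (by linarith)
    unfold Real.binEntropy
    have e1 : 1 - (1 + u) / 2 = (1 - u) / 2 := by ring
    rw [e1, Real.log_inv, Real.log_inv, Real.log_div h1.ne' (by norm_num),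
      Real.log_div h2.ne' (by norm_num)]
    have m1 := mul_le_mul_of_nonneg_left l1 h1.le
    have m2 := mul_le_mul_of_nonneg_left l2 h2.le
    have hpoly : (1 + u) * (u - u ^ 2 / 2 + u ^ 3 / 3) + (1 - u) * (- u - u ^ 2 / 2 - u ^ 3 / 3)
        = u ^ 2 + (2 / 3) * u ^ 4 := by ring
    have hu2 : u ^ 2 ≤ 9 / 16 := by nlinarith
    have hu4 : (2 / 3) * u ^ 4 ≤ (3 / 8) * u ^ 2 := by nlinarith [sq_nonneg u]
    have hfin : u ^ 2 + (2 / 3) * u ^ 4 ≤ 2 * Real.log 2 * u ^ 2 := by
      have : 0 ≤ u ^ 2 := sq_nonneg u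
      nlinarith
    nlinarith
  · push Not at hu
    rcases eq_or_lt_of_le hu1 with h | h
    · subst h
      simp
    · set e : ℝ := (1 - u) / 2 with he
      have he0 : 0 < e := by rw [he]; linarith
      have he1 : e ≤ 1 / 8 := by rw [he]; linarith
      have hsym : Real.binEntropy ((1 + u) / 2) = Real.binEntropy e := by
        rw [← Real.binEntropy_one_sub e]
        congr 1
        rw [he]; ring
      rw [hsym]
      have hu2 : 1 - u ^ 2 = 4 * e * (1 - e) := by
        have : u = 1 - 2 * e := by rw [he]; ring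
        rw [this]; ring
      rw [hu2]
      have hl8 : 3 * Real.log 2 ≤ Real.log (1 / e) := by
        have : (3 : ℝ) * Real.log 2 = Real.log 8 := by
          have h8 : (8 : ℝ) = 2 ^ 3 := by norm_num
          rw [h8, Real.log_pow]
          push_cast
          ring
        rw [this]
        apply Real.log_le_log (by norm_num)
        rw [le_div_iff₀ he0]
        linarith
      have h1e : 0 < 1 - e := by linarith
      have hl1 : e ≤ Real.log (1 - e)⁻¹ := by
        rw [Real.log_inv]
        have := Real.log_le_sub_one_of_pos h1e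
        linarith
      unfold Real.binEntropy
      have hl2 : Real.log e⁻¹ = Real.log (1 / e) := by rw [one_div]
      rw [hl2]
      have m1 : e * (3 * Real.log 2) ≤ e * Real.log (1 / e) :=
        mul_le_mul_of_nonneg_left hl8 he0.le
      have m2 : (1 - e) * e ≤ (1 - e) * Real.log (1 - e)⁻¹ :=
        mul_le_mul_of_nonneg_left hl1 h1e.le
      have m3 : 4 * e * (1 - e) * Real.log 2 ≤ e * (3 * Real.log 2) + (1 - e) * e := by
        have h5 : 0 ≤ e * (Real.log 2 * (4 * e - 1) + (1 - e)) := by
          apply mul_nonneg he0.le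
          nlinarith
        nlinarith
      linarith

/-- The inequality `h(p) ≥ 4 p (1-p)` with nats on the right. -/
lemma entropy_ge_sq {u : ℝ} (hu : |u| ≤ 1) :
    (1 - u ^ 2) * Real.log 2 ≤ Real.binEntropy ((1 + u) / 2) := by
  have hu' := abs_le.mp hu
  rcases le_total 0 u with h | h
  · exact entropy_ge_sq_aux h hu'.2
  · have := entropy_ge_sq_aux (u := -u) (by linarith) (by linarith)
    have e1 : (-u) ^ 2 = u ^ 2 := by ring
    have e2 : Real.binEntropy ((1 + -u) / 2) = Real.binEntropy ((1 + u) / 2) := by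
      rw [← Real.binEntropy_one_sub]
      congr 1
      ring
    rw [e1, e2] at this
    exact this

lemma V_le' {n : ℕ} (f : (Fin n → Bool) → Bool) {t : ℝ} (ht : 0 < t) :
    avg (fun y => 1 - (UU (signOf f) t y) ^ 2) * Real.log 2 ≤ HH (signOf f) t := by
  unfold HH
  rw [← avg_mul_right]
  exact avg_le_avg (fun y => entropy_ge_sq (abs_UU_le f ht y))

/-- The strict inequality at a touching time, with an abstract hypothesis on the touching
configuration. -/
lemma touch_step' {n : ℕ} (f : (Fin n → Bool) → Bool) {ε δ xn η s : ℝ}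
    (hδ0 : 0 ≤ δ) (hδ1 : δ < 1)
    (hδ : ∀ e : ℝ, 0 < e → e ≤ ε → e < 1 / 2 → ∀ x B V : ℝ, 0 ≤ x →
      x ≤ (1 - δ) * Real.binEntropy e → 1 - 2 * x ≤ B → 0 < V →
      V * Real.log 2 ≤ (1 - δ) * Real.binEntropy e - x →
      (1 - δ) * ((1 - 2 * e) * psi (1 - 2 * e)) < W B V)
    (hxnval : xn = Real.log 2 - Real.binEntropy ((1 + avg (signOf f)) / 2))
    (hxn0 : 0 ≤ xn) (hη : 0 < η)
    (hmabs : |avg (signOf f)| < 1)
    (hU : ∀ y, |UU (signOf f) s y| < 1) (hs0 : 0 < s)
    (hρT : 1 - 2 * ε < Real.exp (-s))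
    (htouch : (1 - δ) * zeta s - xn - η = HH (signOf f) s) :
    (1 - δ) * (Real.exp (-s) * psi (Real.exp (-s))) < energy (UU (signOf f) s) := by
  set F : (Fin n → Bool) → ℝ := signOf f with hF
  set ρ : ℝ := Real.exp (-s) with hρ
  have hρ1 : ρ < 1 := by
    rw [hρ, Real.exp_lt_one_iff]; linarith
  have hρ0 : 0 < ρ := Real.exp_pos _
  set e : ℝ := (1 - ρ) / 2 with he
  have he0 : 0 < e := by rw [he]; linarith
  have heε : e ≤ ε := by rw [he]; linarith
  have he1 : e < 1 / 2 := by rw [he]; linarith
  have hρe : ρ = 1 - 2 * e := by rw [he]; ring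
  have hzs : zeta s = Real.binEntropy e := by
    unfold zeta
    rw [← Real.binEntropy_one_sub e]
    congr 1
    rw [← hρ, he]
    ring
  have hHs := HH_nonneg f hs0
  rw [hzs] at htouch
  have hx1 : xn ≤ (1 - δ) * Real.binEntropy e := by linarith
  have hkl := kl_ge hmabs
  rw [← hxnval] at hkl
  have hB : 1 - 2 * xn ≤ 1 - (avg F) ^ 2 := by linarith
  have hV0 : 0 < avg (fun y => 1 - (UU F s y) ^ 2) := by
    apply avg_pos
    intro y
    have := abs_lt.mp (hU y)
    nlinarith
  have hV2 : avg (fun y => 1 - (UU F s y) ^ 2) * Real.log 2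
      ≤ (1 - δ) * Real.binEntropy e - xn := by
    have h2 := V_le' f hs0
    linarith
  have htouchineq := hδ e he0 heε he1 xn _ _ hxn0 hx1 hB hV0 hV2
  have hen := energy_ge (UU F s) hU
  rw [avg_UU] at hen
  rw [← hρe] at htouchineq
  linarith

/-- The differential comparison with the dictator curve, abstract form. -/
theorem entropy_lower' {n : ℕ} (f : (Fin n → Bool) → Bool) {ε δ : ℝ} (hε0 : 0 < ε)
    (hε1 : ε < 1 / 2) (hδ0 : 0 ≤ δ) (hδ1 : δ < 1)
    (hδ : ∀ e : ℝ, 0 < e → e ≤ ε → e < 1 / 2 → ∀ x B V : ℝ, 0 ≤ x →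
      x ≤ (1 - δ) * Real.binEntropy e → 1 - 2 * x ≤ B → 0 < V →
      V * Real.log 2 ≤ (1 - δ) * Real.binEntropy e - x →
      (1 - δ) * ((1 - 2 * e) * psi (1 - 2 * e)) < W B V)
    {T : ℝ} (hT : 0 < T) (hTε : Real.exp (-T) = 1 - 2 * ε) :
    (1 - δ) * Real.binEntropy ε - (Real.log 2 - Real.binEntropy ((1 + avg (signOf f)) / 2))
      ≤ HH (signOf f) T := by
  set F : (Fin n → Bool) → ℝ := signOf f with hF
  set m : ℝ := avg F with hm
  set xn : ℝ := Real.log 2 - Real.binEntropy ((1 + m) / 2) with hxn
  have hxn0 : 0 ≤ xn := by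
    rw [hxn]
    have := Real.binEntropy_le_log_two (p := (1 + m) / 2)
    linarith
  have hHT := HH_nonneg f hT
  have hentε : 0 ≤ Real.binEntropy ε :=
    Real.binEntropy_nonneg hε0.le (by linarith)
  by_cases hcase : (1 - δ) * Real.binEntropy ε ≤ xn
  · linarith
  push Not at hcase
  have hnc : ∀ b : Bool, ∃ x, f x = b := by
    intro b
    by_contra hno
    push Not at hno
    have hcst : ∀ x, f x = !b := by
      intro x
      have := hno x
      cases hfx : f x <;> cases b <;> simp_all
    have hFc : F = fun _ => sg (!b) := by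
      funext x
      rw [hF]
      unfold signOf
      rw [hcst]
    have hmv : m = sg (!b) := by
      rw [hm, hFc, avg_const]
    have hent0 : Real.binEntropy ((1 + m) / 2) = 0 := by
      rw [hmv]
      cases b <;> simp
    have hxnlog : xn = Real.log 2 := by rw [hxn, hent0]; ring
    have h1 := Real.binEntropy_le_log_two (p := ε)
    have h2 : (1 - δ) * Real.binEntropy ε ≤ Real.binEntropy ε := by
      linarith [mul_nonneg hδ0 hentε]
    linarith
  obtain ⟨x0, h0⟩ := hnc true
  obtain ⟨x1, h1⟩ := hnc false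
  have hU : ∀ t : ℝ, 0 < t → ∀ y, |UU F t y| < 1 := fun t ht y => abs_UU_lt f ht h0 h1 y
  have hmabs : |m| < 1 := by
    have := avg_lt_one (hU T hT)
    rwa [avg_UU] at this
  have hHder : ∀ t : ℝ, 0 < t → HasDerivAt (HH F) (energy (UU F t)) t :=
    fun t ht => hasDerivAt_HH F (hU t ht)
  have hzder : ∀ t : ℝ, 0 < t → ∀ η : ℝ, HasDerivAt (fun s => (1 - δ) * zeta s - xn - η)
      ((1 - δ) * (Real.exp (-t) * psi (Real.exp (-t)))) t := by
    intro t ht η
    have := (((hasDerivAt_zeta ht).const_mul (1 - δ)).sub_const xn).sub_const η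
    exact this
  have key : ∀ η : ℝ, 0 < η → (1 - δ) * zeta T - xn ≤ HH F T + η := by
    intro η hη
    have hcont : Continuous (fun s => (1 - δ) * zeta s - xn) :=
      (continuous_const.mul zeta_continuous).sub continuous_const
    have hz0 : (1 - δ) * zeta 0 - xn < η := by
      have : zeta 0 = 0 := by
        unfold zeta
        norm_num
      rw [this]
      linarith
    have hev := (hcont.tendsto 0).eventually_lt_const hz0
    obtain ⟨r, hr0, hr⟩ := Metric.eventually_nhds_iff.mp hev
    set a : ℝ := min (r / 2) (T / 2) with ha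
    have ha0 : 0 < a := lt_min (by linarith) (by linarith)
    have haT : a < T := lt_of_le_of_lt (min_le_right _ _) (by linarith)
    have har : a < r := lt_of_le_of_lt (min_le_left _ _) (by linarith)
    have hza : (1 - δ) * zeta a - xn < η := by
      apply hr
      rw [Real.dist_eq, sub_zero, abs_of_pos ha0]
      exact har
    have hHa := HH_nonneg f ha0
    have hfence := image_le_of_deriv_right_lt_deriv_boundary'
      (f := fun s => (1 - δ) * zeta s - xn - η)
      (f' := fun s => (1 - δ) * (Real.exp (-s) * psi (Real.exp (-s))))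
      (a := a) (b := T) (B := HH F) (B' := fun s => energy (UU F s))
      (fun s hs => (hzder s (lt_of_lt_of_le ha0 hs.1) η).continuousAt.continuousWithinAt)
      (fun s hs => (hzder s (lt_of_lt_of_le ha0 hs.1) η).hasDerivWithinAt)
      (by linarith)
      (fun s hs => (hHder s (lt_of_lt_of_le ha0 hs.1)).continuousAt.continuousWithinAt)
      (fun s hs => (hHder s (lt_of_lt_of_le ha0 hs.1)).hasDerivWithinAt)
      (fun s hs htouch => touch_step' f hδ0 hδ1 hδ hxn hxn0 hη hmabs
        (hU s (lt_of_lt_of_le ha0 hs.1)) (lt_of_lt_of_le ha0 hs.1)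
        (by
          rw [← hTε]
          exact Real.exp_lt_exp.mpr (by linarith [hs.2]))
        htouch)
    have := hfence (Set.right_mem_Icc.mpr haT.le)
    linarith
  have hfin : (1 - δ) * zeta T - xn ≤ HH F T := le_of_forall_pos_le_add key
  have hzT : zeta T = Real.binEntropy ε := by
    unfold zeta
    rw [hTε, ← Real.binEntropy_one_sub ε]
    congr 1
    ring
  rw [hzT] at hfin
  exact hfin

/-- An elementary one-variable inequality. -/
lemma log_succ_lt {l : ℝ} (hl : Real.log 2 ≤ l) :
    Real.log (l + 1) < l / 2 + l * Real.exp (-l) := by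
  have hlog2 := Real.log_two_gt_d9
  have hlog2' := Real.log_two_lt_d9
  have hl0 : 0 < l := by linarith
  have hexp1 := Real.exp_one_lt_d9
  have hexp0 : 0 < Real.exp 1 := Real.exp_pos 1
  by_cases hl2 : l ≤ 2
  · -- tangent at `l = 1`
    have h1 : Real.log (l + 1) ≤ Real.log 2 + (l - 1) / 2 := by
      have h2 : Real.log ((l + 1) / 2) ≤ (l + 1) / 2 - 1 :=
        Real.log_le_sub_one_of_pos (by linarith)
      rw [Real.log_div (by linarith) (by norm_num)] at h2
      linarith
    have h3 : Real.exp (-2) * (3 - l) ≤ Real.exp (-l) := by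
      have h4 := Real.add_one_le_exp (2 - l)
      have h5 : Real.exp (-l) = Real.exp (-2) * Real.exp (2 - l) := by
        rw [← Real.exp_add]; congr 1; ring
      rw [h5]
      apply mul_le_mul_of_nonneg_left _ (Real.exp_pos _).le
      linarith
    have h6 : (0.135 : ℝ) ≤ Real.exp (-2) := by
      have h7 : Real.exp (-2) = (Real.exp 1 ^ 2)⁻¹ := by
        rw [← Real.exp_nat_mul, Real.exp_neg]
        norm_num
      rw [h7]
      have h8 : Real.exp 1 ^ 2 ≤ 7.4 := by
        have := pow_le_pow_left₀ hexp0.le hexp1.le 2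
        norm_num at this ⊢
        linarith
      have h9 : (0 : ℝ) < Real.exp 1 ^ 2 := by positivity
      rw [le_inv_comm₀ (by norm_num) h9]
      norm_num
      norm_num at h8
      linarith
    have h10 : 1.59 ≤ l * (3 - l) := by
      nlinarith [mul_nonneg (sub_nonneg.mpr hl) (sub_nonneg.mpr hl2)]
    have h11 : 0.2146 ≤ l * Real.exp (-l) := by
      have h12 : l * (Real.exp (-2) * (3 - l)) ≤ l * Real.exp (-l) :=
        mul_le_mul_of_nonneg_left h3 hl0.le
      have h13 : 0.135 * 1.59 ≤ Real.exp (-2) * (l * (3 - l)) :=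
        mul_le_mul h6 h10 (by norm_num) (Real.exp_pos _).le
      nlinarith
    linarith
  · push Not at hl2
    -- tangent at `l = 3`
    have h1 : Real.log (l + 1) ≤ 2 * Real.log 2 + (l - 3) / 4 := by
      have h2 : Real.log ((l + 1) / 4) ≤ (l + 1) / 4 - 1 :=
        Real.log_le_sub_one_of_pos (by linarith)
      have h4 : Real.log 4 = 2 * Real.log 2 := by
        have : (4 : ℝ) = 2 ^ 2 := by norm_num
        rw [this, Real.log_pow]
        push_cast
        ring
      rw [Real.log_div (by linarith) (by norm_num), h4] at h2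
      linarith
    by_cases hl3 : l ≤ 2.6
    · have h3 : Real.exp (-3) * (4 - l) ≤ Real.exp (-l) := by
        have h4 := Real.add_one_le_exp (3 - l)
        have h5 : Real.exp (-l) = Real.exp (-3) * Real.exp (3 - l) := by
          rw [← Real.exp_add]; congr 1; ring
        rw [h5]
        apply mul_le_mul_of_nonneg_left _ (Real.exp_pos _).le
        linarith
      have h6 : (0.0497 : ℝ) ≤ Real.exp (-3) := by
        have h7 : Real.exp (-3) = (Real.exp 1 ^ 3)⁻¹ := by
          rw [← Real.exp_nat_mul, Real.exp_neg]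
          norm_num
        rw [h7]
        have h8 : Real.exp 1 ^ 3 ≤ 20.1 := by
          have := pow_le_pow_left₀ hexp0.le hexp1.le 3
          norm_num at this ⊢
          linarith
        have h9 : (0 : ℝ) < Real.exp 1 ^ 3 := by positivity
        rw [le_inv_comm₀ (by norm_num) h9]
        norm_num
        norm_num at h8
        linarith
      have h10 : 2.8 ≤ l * (4 - l) := by
        nlinarith
      have h11 : 0.139 ≤ l * Real.exp (-l) := by
        have h12 : l * (Real.exp (-3) * (4 - l)) ≤ l * Real.exp (-l) :=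
          mul_le_mul_of_nonneg_left h3 hl0.le
        have h13 : 0.0497 * 2.8 ≤ Real.exp (-3) * (l * (4 - l)) :=
          mul_le_mul h6 h10 (by norm_num) (Real.exp_pos _).le
        nlinarith
      linarith
    · push Not at hl3
      have h11 : 0 < l * Real.exp (-l) := mul_pos hl0 (Real.exp_pos _)
      linarith

/-- The dictator rate is below the log-gain at half the entropy. -/
lemma rate_lt_half {e : ℝ} (he0 : 0 < e) (he1 : e < 1 / 2) :
    (1 - 2 * e) * psi (1 - 2 * e) < Real.log (4 * Real.log 2 / Real.binEntropy e) - 1 := by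
  have hlog2 := Real.log_two_gt_d9
  have hlog2' := Real.log_two_lt_d9
  set l : ℝ := Real.log (1 / e) with hl
  have hl2 : Real.log 2 ≤ l := by
    rw [hl]
    apply Real.log_le_log (by norm_num)
    rw [le_div_iff₀ he0]
    linarith
  have hl0 : 0 < l := by linarith
  have hent0 : 0 < Real.binEntropy e := Real.binEntropy_pos he0 (by linarith)
  have hent := binEntropy_le_mul (e := e) (by linarith)
  rw [← hl] at hent
  have hρ0 : psi (1 - 2 * e) ≤ l / 2 := by
    unfold psi
    have h1 : (1 + (1 - 2 * e)) / (1 - (1 - 2 * e)) ≤ 1 / e := by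
      rw [div_le_div_iff₀ (by linarith) he0]
      nlinarith
    have h2 := Real.log_le_log (by apply div_pos <;> linarith) h1
    rw [hl]
    linarith
  have hρ : (1 - 2 * e) * psi (1 - 2 * e) ≤ (1 - 2 * e) * (l / 2) :=
    mul_le_mul_of_nonneg_left hρ0 (by linarith)
  have hexp : Real.exp (-l) = e := by
    rw [hl, Real.exp_neg, Real.exp_log (by positivity)]
    field_simp
  have hkey := log_succ_lt hl2
  rw [hexp] at hkey
  have h4 : 1 ≤ Real.log (4 * Real.log 2) := by
    rw [Real.le_log_iff_exp_le (by linarith)]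
    have := Real.exp_one_lt_d9
    linarith
  have hlog : Real.log (4 * Real.log 2) + l - Real.log (l + 1)
      ≤ Real.log (4 * Real.log 2 / Real.binEntropy e) := by
    have h5 : Real.log (e * (l + 1)) = -l + Real.log (l + 1) := by
      rw [Real.log_mul he0.ne' (by linarith)]
      congr 1
      rw [hl, one_div, Real.log_inv, neg_neg]
    have h6 : Real.log (Real.binEntropy e) ≤ Real.log (e * (l + 1)) :=
      Real.log_le_log hent0 hent
    rw [Real.log_div (by linarith) hent0.ne']
    linarith
  nlinarith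

/-- The touching inequality for the constant one half. -/
lemma touch_half {e x B V : ℝ} (he0 : 0 < e) (he1 : e < 1 / 2) (hx0 : 0 ≤ x)
    (hx1 : x ≤ (1 - 1 / 2) * Real.binEntropy e) (hB : 1 - 2 * x ≤ B) (hV : 0 < V)
    (hV2 : V * Real.log 2 ≤ (1 - 1 / 2) * Real.binEntropy e - x) :
    (1 - 1 / 2) * ((1 - 2 * e) * psi (1 - 2 * e)) < W B V := by
  have hlog2 := Real.log_two_gt_d9
  have hlog2' := Real.log_two_lt_d9
  have hlog2pos : 0 < Real.log 2 := by linarith
  set h : ℝ := Real.binEntropy e with hh
  have hh0 : 0 < h := Real.binEntropy_pos he0 (by linarith)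
  have hh1 : h ≤ Real.log 2 := Real.binEntropy_le_log_two
  set t : ℝ := h / 2 - x with ht
  have ht0 : 0 < t := by
    have : 0 < V * Real.log 2 := mul_pos hV hlog2pos
    rw [ht]; linarith
  set B' : ℝ := 1 - 2 * x with hB'
  have hB'pos : 0 < B' := by rw [hB']; nlinarith
  have hBpos : 0 < B := by linarith
  set A : ℝ := Real.log (4 * Real.log 2 / h) - 1 with hA
  have hrate := rate_lt_half he0 he1
  rw [← hh, ← hA] at hrate
  -- the extra logarithm
  set y : ℝ := B' * h / (2 * t) with hy
  have hy1 : 1 ≤ y := by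
    rw [hy, le_div_iff₀ (by positivity)]
    have e1 : B' = 1 - h + 2 * t := by rw [hB', ht]; ring
    have e2 : t ≤ h / 2 := by rw [ht]; linarith
    rw [e1]
    nlinarith [mul_nonneg (sub_nonneg.mpr e2) (by linarith : 0 ≤ 1 - h + t)]
  have hy0 : 0 < y := by linarith
  set v : ℝ := Real.log y with hv
  have hv0 : 0 ≤ v := Real.log_nonneg hy1
  -- the main logarithm bound
  have hlogmain : A + 1 + v ≤ Real.log (2 * B / V) := by
    have h1 : 4 * Real.log 2 / h * y ≤ 2 * B / V := by
      have h2 : 4 * Real.log 2 / h * y = 2 * B' * Real.log 2 / t := by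
        rw [hy]; field_simp; ring
      rw [h2, div_le_div_iff₀ ht0 hV]
      have h3 : 2 * B' * (Real.log 2 * V) ≤ 2 * B' * t := by
        apply mul_le_mul_of_nonneg_left _ (by positivity)
        rw [mul_comm]
        rw [ht]
        linarith
      have h4 : 2 * B' * t ≤ 2 * B * t := by
        apply mul_le_mul_of_nonneg_right _ ht0.le
        linarith
      nlinarith
    have h5 := Real.log_le_log (by positivity) h1
    rw [Real.log_mul (by positivity) hy0.ne'] at h5
    rw [hA]
    linarith
  -- the product inequality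
  have hprod : A ≤ B' * (A + v) := by
    have h1 := Real.one_sub_inv_le_log_of_pos hy0
    rw [← hv] at h1
    have h2 : B' * (1 - y⁻¹) = 2 * x * (1 - h) / h := by
      rw [hy]
      have e1 : B' = 1 - 2 * x := rfl
      have e2 : t = h / 2 - x := rfl
      field_simp
      rw [e1, e2]
      ring
    have h3 : 2 * x * (1 - h) / h ≤ B' * v := by
      rw [← h2]
      exact mul_le_mul_of_nonneg_left h1 hB'pos.le
    -- `h * (A + 1) ≤ 1`
    have h4 : h * (A + 1) ≤ 1 := by
      have e1 : A + 1 = Real.log (4 * Real.log 2 / h) := by rw [hA]; ring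
      rw [e1]
      have e2 : Real.log (4 * Real.log 2 / h) = Real.log 4 + Real.log (Real.log 2 / h) := by
        rw [← Real.log_mul (by norm_num) (by positivity)]
        congr 1
        ring
      have e3 : Real.log (Real.log 2 / h) ≤ Real.log 2 / h - 1 :=
        Real.log_le_sub_one_of_pos (by positivity)
      have e4 : Real.log 4 = 2 * Real.log 2 := by
        have : (4 : ℝ) = 2 ^ 2 := by norm_num
        rw [this, Real.log_pow]
        push_cast
        ring
      rw [e2, e4]
      have e5 : h * (2 * Real.log 2 + Real.log (Real.log 2 / h))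
          ≤ h * (2 * Real.log 2 + (Real.log 2 / h - 1)) :=
        mul_le_mul_of_nonneg_left (by linarith) hh0.le
      have e6 : h * (2 * Real.log 2 + (Real.log 2 / h - 1))
          = h * (2 * Real.log 2 - 1) + Real.log 2 := by
        field_simp
        ring
      rw [e6] at e5
      nlinarith
    have h5 : 2 * x * A ≤ 2 * x * (1 - h) / h := by
      rw [le_div_iff₀ hh0]
      have : 2 * x * (h * (A + 1)) ≤ 2 * x * 1 :=
        mul_le_mul_of_nonneg_left h4 (by positivity)
      nlinarith
    have hexp : B' * (A + v) = A - 2 * x * A + B' * v := by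
      rw [hB']; ring
    rw [hexp]
    linarith
  have hA0 : 0 < A := by
    have h1 : 0 ≤ (1 - 2 * e) * psi (1 - 2 * e) := by
      have h2 : 0 ≤ psi (1 - 2 * e) := by
        unfold psi
        apply mul_nonneg (by norm_num)
        apply Real.log_nonneg
        rw [le_div_iff₀ (by linarith)]
        linarith
      exact mul_nonneg (by linarith) h2
    linarith
  unfold W
  have hfin : B' * (A + v) ≤ B * (Real.log (2 * B / V) - 1) := by
    apply mul_le_mul hB (by linarith) (by linarith) hBpos.le
  nlinarith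

end Vale.Agent.P322
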